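import Vale.Agent.P128.TC.Defs

/-! P128 TC/JGeo. Helper lemma names end with _JGeo.
nco x e is affine and 1-Lipschitz (Complex.abs_im_le_norm, norm_mul, ‖conj e‖ = 1). With v = (z - x) * conj e = a + i n one has ‖z - x‖ = ‖v‖ and
dist z (x ± r e) = ‖v ∓ r‖ (multiply by conj e, e * conj e = 1), so a^2 + n^2 = ‖z - x‖^2 and (a ∓ r)^2 + n^2 ≥ ρ^2. If |n| < ρ/4 then
|a| ≥ ‖z - x‖ - |n| > r - 3ρ/4 and |a| ≤ r, so (r - |a|)^2 + n^2 < (9/16 + 1/16) ρ^2, a contradiction.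
ramp_lip: LipschitzWith.of_dist_le_mul or abs_max_sub_max_le_abs, abs_min_sub_min_le_max. ramp_dir: norm_fderiv_le_of_lip' bounds the gradient by
|b - a| / (2h); setLIntegral_mono, setLIntegral_const, Complex.volume_closedBall, π ≤ 4. -/

namespace Vale.Agent.P128

open MeasureTheory Set Metric Filter Topology
open scoped ENNReal

theorem nco_JGeo (x e z : ℂ) : nco x e z = (z.im - x.im) * e.re - (z.re - x.re) * e.im := by
  simp [nco]
  ring

theorem unit_JGeo {e : ℂ} (he : ‖e‖ = 1) : e.re ^ 2 + e.im ^ 2 = 1 := by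
  have h := Complex.sq_norm e
  rw [he, Complex.normSq_apply] at h
  linarith

theorem dist_JGeo (z w : ℂ) : dist z w ^ 2 = (z.re - w.re) ^ 2 + (z.im - w.im) ^ 2 := by
  rw [dist_eq_norm, Complex.sq_norm, Complex.normSq_apply, Complex.sub_re, Complex.sub_im]
  ring

theorem key_JGeo {A N d r ρ : ℝ} (hA : 0 ≤ A) (hN : 0 ≤ N) (hd : 0 ≤ d) (h : A ^ 2 + N ^ 2 = d ^ 2)
    (h1 : r - ρ / 2 ≤ d) (h2 : d ≤ r) (hρ : 0 < ρ) (h3 : ρ ^ 2 ≤ d ^ 2 - 2 * r * A + r ^ 2) :
    ρ / 4 ≤ N := by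
  by_contra hc
  have h4 : N < ρ / 4 := not_le.1 hc
  have h5 : d ≤ A + N := abs_le_of_sq_le_sq' (by nlinarith) (by linarith) |>.2
  have h6 : A ≤ d := abs_le_of_sq_le_sq' (by nlinarith) hd |>.2
  have h7 : (r - A) ^ 2 ≤ (3 * ρ / 4) ^ 2 := pow_le_pow_left₀ (by linarith) (by linarith) 2
  have h8 : N ^ 2 ≤ (ρ / 4) ^ 2 := pow_le_pow_left₀ hN h4.le 2
  nlinarith

theorem clamp_JGeo (s t : ℝ) : |max 0 (min 1 s) - max 0 (min 1 t)| ≤ |s - t| := by
  refine (abs_max_sub_max_le_max _ _ _ _).trans (max_le (by simp) ?_)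
  exact (abs_min_sub_min_le_max _ _ _ _).trans (max_le (by simp) le_rfl)

theorem nco_lip {e : ℂ} (he : ‖e‖ = 1) (x z z' : ℂ) : |nco x e z - nco x e z'| ≤ dist z z' := by
  have e1 : nco x e z - nco x e z' = ((z - z') * (starRingEnd ℂ) e).im := by
    rw [nco, nco, ← Complex.sub_im]
    congr 1
    ring
  rw [e1, dist_eq_norm]
  refine (Complex.abs_im_le_norm _).trans ?_
  rw [norm_mul, Complex.norm_conj, he, mul_one]

theorem nco_convex (x e : ℂ) (h : ℝ) :
    Convex ℝ {z | h ≤ nco x e z} ∧ Convex ℝ {z | nco x e z ≤ -h} := by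
  have e1 : ∀ (z w : ℂ) (a b : ℝ), a + b = 1 →
      nco x e (a • z + b • w) = a * nco x e z + b * nco x e w := fun z w a b hab => by
    simp only [nco_JGeo, Complex.add_re, Complex.add_im, Complex.smul_re, Complex.smul_im,
      smul_eq_mul]
    linear_combination (x.im * e.re - x.re * e.im) * hab
  refine ⟨fun z hz w hw a b ha hb hab => ?_, fun z hz w hw a b ha hb hab => ?_⟩
  · show h ≤ nco x e (a • z + b • w)
    have h1 := mul_le_mul_of_nonneg_left (show h ≤ nco x e z from hz) ha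
    have h2 := mul_le_mul_of_nonneg_left (show h ≤ nco x e w from hw) hb
    have h3 : a * h + b * h = h := by rw [← add_mul, hab, one_mul]
    rw [e1 z w a b hab]
    linarith
  · show nco x e (a • z + b • w) ≤ -h
    have h1 := mul_le_mul_of_nonneg_left (show nco x e z ≤ -h from hz) ha
    have h2 := mul_le_mul_of_nonneg_left (show nco x e w ≤ -h from hw) hb
    have h3 : a * -h + b * -h = -h := by rw [← add_mul, hab, one_mul]
    rw [e1 z w a b hab]
    linarith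

theorem nco_upP {e : ℂ} (he : ‖e‖ = 1) (x : ℂ) {r : ℝ} (hr : 0 < r) :
    nco x e (upP x e r) = r / 2 ∧ nco x e (dnP x e r) = -(r / 2) ∧
      dist (upP x e r) x = r / 2 ∧ dist (dnP x e r) x = r / 2 := by
  have h1 := unit_JGeo he
  have h2 : ‖((r / 2 : ℝ) : ℂ) * (Complex.I * e)‖ = r / 2 := by
    rw [norm_mul, norm_mul, Complex.norm_I, he, Complex.norm_real, Real.norm_eq_abs,
      abs_of_pos (half_pos hr), mul_one, mul_one]
  refine ⟨?_, ?_, ?_, ?_⟩
  · simp only [nco_JGeo, upP, Complex.add_re, Complex.add_im, Complex.re_ofReal_mul,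
      Complex.im_ofReal_mul, Complex.I_mul_re, Complex.I_mul_im]
    linear_combination r / 2 * h1
  · simp only [nco_JGeo, dnP, Complex.sub_re, Complex.sub_im, Complex.re_ofReal_mul,
      Complex.im_ofReal_mul, Complex.I_mul_re, Complex.I_mul_im]
    linear_combination -(r / 2) * h1
  · rw [upP, dist_self_add_left, h2]
  · rw [dnP, dist_self_sub_left, h2]

theorem collar_nco {e : ℂ} (he : ‖e‖ = 1) (x : ℂ) {r ρ : ℝ} (hρ : 0 < ρ) (hρr : ρ ≤ r)
    {Z : Finset ℂ} (h1 : x + r * e ∈ Z) (h2 : x - r * e ∈ Z) {z : ℂ}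
    (hz : z ∈ collar x r (ρ / 2) ρ Z) : ρ / 4 ≤ |nco x e z| := by
  obtain ⟨a1, a2, a3⟩ := hz
  have h3 := unit_JGeo he
  have h4 := pow_le_pow_left₀ hρ.le (a3 _ h1) 2
  have h5 := pow_le_pow_left₀ hρ.le (a3 _ h2) 2
  have h6 := dist_JGeo z x
  rw [dist_JGeo] at h4 h5
  simp only [Complex.add_re, Complex.add_im, Complex.sub_re, Complex.sub_im,
    Complex.re_ofReal_mul, Complex.im_ofReal_mul] at h4 h5
  have h7 : r ^ 2 * (e.re ^ 2 + e.im ^ 2) = r ^ 2 := by rw [h3, mul_one]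
  refine key_JGeo (A := |(z.re - x.re) * e.re + (z.im - x.im) * e.im|) (abs_nonneg _)
    (abs_nonneg _) dist_nonneg ?_ a1 a2 hρ ?_
  · rw [sq_abs, sq_abs, nco_JGeo, h6]
    linear_combination ((z.re - x.re) ^ 2 + (z.im - x.im) ^ 2) * h3
  · rcases abs_cases ((z.re - x.re) * e.re + (z.im - x.im) * e.im) with h | h <;>
      rw [h.1, h6] <;> linarith

theorem ramp_lip {e : ℂ} (he : ‖e‖ = 1) (x : ℂ) {h : ℝ} (hh : 0 < h) (a b : ℝ) (z z' : ℂ) :
    |jramp x e h a b z - jramp x e h a b z'| ≤ |b - a| / (2 * h) * dist z z' := by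
  have h1 := clamp_JGeo ((nco x e z + h) / (2 * h)) ((nco x e z' + h) / (2 * h))
  have h2 : 0 < 2 * h := by linarith
  rw [← sub_div, add_sub_add_right_eq_sub, abs_div, abs_of_pos h2] at h1
  rw [jramp, jramp, add_sub_add_left_eq_sub, ← mul_sub, abs_mul, div_mul_eq_mul_div, mul_div_assoc]
  exact mul_le_mul_of_nonneg_left
    (h1.trans (div_le_div_of_nonneg_right (nco_lip he x z z') h2.le)) (abs_nonneg _)

theorem ramp_loc {e : ℂ} (he : ‖e‖ = 1) (x : ℂ) {h : ℝ} (hh : 0 < h) (a b : ℝ) (z : ℂ) :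
    (h < nco x e z → ∀ᶠ w in 𝓝 z, jramp x e h a b w = b) ∧
      (nco x e z < -h → ∀ᶠ w in 𝓝 z, jramp x e h a b w = a) := by
  have hc : Continuous (nco x e) := by
    unfold nco
    fun_prop
  have h2 : 0 < 2 * h := by linarith
  refine ⟨fun h1 => ?_, fun h1 => ?_⟩
  · filter_upwards [continuousAt_const.eventually_lt hc.continuousAt h1] with w hw
    rw [jramp, min_eq_left ((one_le_div h2).2 (by linarith)), max_eq_right zero_le_one]
    ring
  · filter_upwards [hc.continuousAt.eventually_lt continuousAt_const h1] with w hw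
    rw [jramp, max_eq_left ((min_le_right _ _).trans
      (div_nonpos_of_nonpos_of_nonneg (by linarith) h2.le))]
    ring

theorem ramp_dir {e : ℂ} (he : ‖e‖ = 1) (x : ℂ) {h r : ℝ} (hh : 0 < h) (hr : 0 < r) (a b : ℝ) :
    Dir (jramp x e h a b) (closedBall x r) ≤ ENNReal.ofReal ((b - a) ^ 2 * r ^ 2 / h ^ 2) := by
  have h0 : 0 ≤ |b - a| / (2 * h) := by positivity
  have h1 : ∀ z, ‖fderiv ℝ (jramp x e h a b) z‖ₑ ^ 2 ≤ ENNReal.ofReal ((|b - a| / (2 * h)) ^ 2) :=
    fun z => by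
      have h2 : ‖fderiv ℝ (jramp x e h a b) z‖ ≤ |b - a| / (2 * h) :=
        norm_fderiv_le_of_lip' ℝ h0 (Eventually.of_forall fun w => by
          rw [← dist_eq_norm w z]
          exact ramp_lip he x hh a b w z)
      rw [← ofReal_norm, ← ENNReal.ofReal_pow (norm_nonneg _)]
      exact ENNReal.ofReal_le_ofReal (pow_le_pow_left₀ (norm_nonneg _) h2 2)
  refine (lintegral_mono h1).trans ?_
  rw [setLIntegral_const, Complex.volume_closedBall, ← ENNReal.ofReal_pow hr.le,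
    ← ENNReal.ofReal_coe_nnreal, ← ENNReal.ofReal_mul (sq_nonneg _),
    ← ENNReal.ofReal_mul (sq_nonneg _), NNReal.coe_real_pi]
  refine ENNReal.ofReal_le_ofReal ?_
  have h3 : (|b - a| / (2 * h)) ^ 2 * (r ^ 2 * Real.pi) =
      (b - a) ^ 2 * r ^ 2 / h ^ 2 * (Real.pi / 4) := by
    rw [div_pow, sq_abs]
    ring
  rw [h3]
  exact mul_le_of_le_one_right (by positivity) (by linarith [Real.pi_le_four])

end Vale.Agent.P128
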