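import Vale.Agent.P128.TC.Defs

/-! P128 TC/Osc. Helper lemma names end with _Osc.
For z in S: grad_bound (h.holo restricted to ball z ρ) and lintegral_mono_set give ‖fderiv u z‖^2 * (π ρ^2) ≤ E, so ‖fderiv u z‖ ≤ √E / ρ;
then Convex.norm_image_sub_le_of_norm_fderiv_le. -/

namespace Vale.Agent.P128

open MeasureTheory Set Metric Filter Topology
open scoped ENNReal

/-- Oscillation of `u` on a convex set at a distance from `K`. -/
theorem osc_convex {Ω : Set ℂ} {ε : ℝ} {wk : Prop} {u : ℂ → ℝ} {K : Set ℂ} (h : AM0 Ω ε wk u K)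
    {S T : Set ℂ} (hS : Convex ℝ S) {ρ E : ℝ} (hρ : 0 < ρ) (hE0 : 0 ≤ E)
    (hT : ∀ z ∈ S, ball z ρ ⊆ T) (hTK : T ⊆ Ω \ K) (hE : Dir u T ≤ ENNReal.ofReal E)
    {p q : ℂ} (hp : p ∈ S) (hq : q ∈ S) : |u p - u q| ≤ √E / ρ * dist p q := by
  have hm : ∀ z ∈ S, z ∈ Ω \ K := fun z hz => hTK (hT z hz (mem_ball_self hρ))
  have hb : ∀ z ∈ S, ‖fderiv ℝ u z‖ ≤ √E / ρ := by
    intro z hz
    have h1 := grad_bound hρ (h.holo.mono ((hT z hz).trans hTK))
    have h2 := (h1.trans (lintegral_mono_set (hT z hz))).trans hE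
    rw [← ofReal_norm_eq_enorm, ← ENNReal.ofReal_pow (norm_nonneg _),
      ← ENNReal.ofReal_mul (by positivity), ENNReal.ofReal_le_ofReal_iff hE0] at h2
    rw [le_div_iff₀ hρ]
    refine Real.le_sqrt_of_sq_le ?_
    have h3 : 0 ≤ (‖fderiv ℝ u z‖ * ρ) ^ 2 := sq_nonneg _
    nlinarith [Real.pi_gt_three]
  have := hS.norm_image_sub_le_of_norm_fderiv_le (fun z hz => h.diff z (hm z hz)) hb hq hp
  rwa [Real.norm_eq_abs, ← dist_eq_norm] at this

end Vale.Agent.P128
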