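import Vale.Agent.P128.TC.Glue
import Vale.Agent.P128.TC.JGeo
import Vale.Agent.P128.TC.Osc

/-! P128 TC/Jump. Helper lemma names end with _Jump.
Assembly of the jump lemma. -/

namespace Vale.Agent.P128

open MeasureTheory Set Metric Filter Topology
open scoped ENNReal

theorem ball_Jump {e : ℂ} (he : ‖e‖ = 1) (x : ℂ) {c r : ℝ} (hc : 0 < c) (hc1 : c ≤ 1) (hr : 0 < r)
    {z : ℂ} (hz : z ∈ closedBall x r) (hn : c * r / 400 ≤ |nco x e z|) :
    ball z (c * r / 1000) ⊆ ball x (2 * r) \ strip x e (2 * (c / 2000) * r) := by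
  intro w hw
  rw [mem_ball] at hw
  rw [mem_closedBall] at hz
  have hcr : c * r ≤ r := by nlinarith
  have hcr0 : 0 < c * r := by positivity
  refine ⟨mem_ball.2 (by linarith [dist_triangle w z x]), fun hs => ?_⟩
  have h1 : |nco x e w| ≤ 2 * (c / 2000) * r := hs
  have h2 := nco_lip he x w z
  have h3 := abs_sub_abs_le_abs_sub (nco x e z) (nco x e w)
  rw [abs_sub_comm] at h3
  linarith

theorem num_Jump {c r J E : ℝ} (hc : 0 < c) (hc1 : c ≤ 1) (hr : 0 < r)
    (hJ : |J| < c ^ 2 / 10 ^ 4 * √r) (hE : E ≤ c ^ 4 / 10 ^ 12 * r) {n : ℝ} (hn : n ≤ 2) :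
    (1 + 1) * (J ^ 2 * r ^ 2 / (c * r / 800) ^ 2) + 2 * (1 + 1 / 1) *
      (c ^ 4 / 10 ^ 12 * r + 7 * r * (c / 500 * √r) ^ 2 / (c * r / 100 / 2)) +
      7 * (c * r / 100) * n + E < c * r := by
  have hs : √r ^ 2 = r := Real.sq_sqrt hr.le
  have hcr0 : 0 < c * r := by positivity
  have h1 : J ^ 2 ≤ c ^ 4 / 10 ^ 8 * r := by
    have h := pow_le_pow_left₀ (abs_nonneg J) hJ.le 2
    rw [sq_abs, mul_pow, hs] at h
    linarith
  have h2 : J ^ 2 * r ^ 2 / (c * r / 800) ^ 2 ≤ c * r / 100 := by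
    rw [div_le_iff₀ (by positivity)]
    have h3 : J ^ 2 * r ^ 2 ≤ c ^ 4 / 10 ^ 8 * r * r ^ 2 := by gcongr
    have h4 : c ^ 4 ≤ c ^ 3 := pow_le_pow_of_le_one hc.le hc1 (by norm_num)
    have h5 : c ^ 4 * r ^ 3 ≤ c ^ 3 * r ^ 3 := by gcongr
    have h6 : 0 ≤ c ^ 3 * r ^ 3 := by positivity
    nlinarith
  have h3 : 7 * r * (c / 500 * √r) ^ 2 / (c * r / 100 / 2) = 7 / 1250 * (c * r) := by
    rw [mul_pow, hs]
    field_simp
    ring
  have h4 : c ^ 4 ≤ c := by
    have := pow_le_pow_of_le_one hc.le hc1 (show 1 ≤ 4 by norm_num)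
    rwa [pow_one] at this
  have h5 : c ^ 4 * r ≤ c * r := by gcongr
  have h6 : c * r * n ≤ c * r * 2 := by gcongr
  rw [h3]
  nlinarith

theorem side_Jump {Ω : Set ℂ} {ε : ℝ} {wk : Prop} {u : ℂ → ℝ} {K : Set ℂ} (h : AM0 Ω ε wk u K)
    {x e : ℂ} (he : ‖e‖ = 1) {c r : ℝ} (hc : 0 < c) (hc1 : c ≤ 1) (hr : 0 < r)
    (hTK : ball x (2 * r) \ strip x e (2 * (c / 2000) * r) ⊆ Ω \ K)
    (hE : Dir u (ball x (2 * r) \ strip x e (2 * (c / 2000) * r)) ≤
      ENNReal.ofReal (c ^ 4 / 10 ^ 12 * r))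
    {H : Set ℂ} (hH : Convex ℝ H) (hHn : ∀ z ∈ H, c * r / 400 ≤ |nco x e z|) {z q : ℂ}
    (hz : z ∈ closedBall x r ∩ H) (hq : q ∈ closedBall x r ∩ H) :
    |u z - u q| ≤ c / 500 * √r ∧ ∀ κ : ℂ → ℝ, LC (Ω \ K) κ → κ z = κ q := by
  have hS := (convex_closedBall x r).inter hH
  have hT := fun v (hv : v ∈ closedBall x r ∩ H) => ball_Jump he x hc hc1 hr hv.1 (hHn v hv.2)
  have hρ : 0 < c * r / 1000 := by positivity
  refine ⟨?_, fun κ hκ => hκ.const hS.isPreconnected
    (fun v hv => hTK (hT v hv (mem_ball_self hρ))) hz hq⟩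
  have h1 := osc_convex h hS hρ (by positivity) hT hTK hE hz hq
  have h2 : √(c ^ 4 / 10 ^ 12 * r) = c ^ 2 / 10 ^ 6 * √r := by
    rw [Real.sqrt_mul (by positivity), show c ^ 4 / 10 ^ 12 = (c ^ 2 / 10 ^ 6) ^ 2 by ring,
      Real.sqrt_sq (by positivity)]
  have h3 : dist z q ≤ 2 * r := by
    have := dist_triangle_right z q x
    linarith [mem_closedBall.1 hz.1, mem_closedBall.1 hq.1]
  rw [h2] at h1
  refine h1.trans ((mul_le_mul_of_nonneg_left h3 (by positivity)).trans (le_of_eq ?_))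
  field_simp
  ring

theorem col_Jump {Ω : Set ℂ} {ε : ℝ} {wk : Prop} {u : ℂ → ℝ} {K : Set ℂ} (h : AM0 Ω ε wk u K)
    {x e : ℂ} (he : ‖e‖ = 1) {c r : ℝ} (hc : 0 < c) (hc1 : c ≤ 1) (hr : 0 < r)
    (hTK : ball x (2 * r) \ strip x e (2 * (c / 2000) * r) ⊆ Ω \ K)
    (hE : Dir u (ball x (2 * r) \ strip x e (2 * (c / 2000) * r)) ≤
      ENNReal.ofReal (c ^ 4 / 10 ^ 12 * r))
    {z : ℂ} (hz : z ∈ closedBall x r) (hn : c * r / 400 ≤ |nco x e z|) :
    ∃ q, (q = upP x e r ∨ q = dnP x e r) ∧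
      (∀ᶠ v in 𝓝 z, jramp x e (c * r / 800) (u (dnP x e r)) (u (upP x e r)) v = u q) ∧
      |u z - u q| ≤ c / 500 * √r ∧ ∀ κ : ℂ → ℝ, LC (Ω \ K) κ → κ z = κ q := by
  obtain ⟨n1, n2, d1, d2⟩ := nco_upP he x hr
  have hcr : c * r ≤ r := by nlinarith
  have hcr0 : 0 < c * r := by positivity
  have hloc := ramp_loc he x (show 0 < c * r / 800 by positivity) (u (dnP x e r))
    (u (upP x e r)) z
  rcases le_abs.1 hn with h1 | h1
  · refine ⟨_, Or.inl rfl, hloc.1 (by linarith), side_Jump h he hc hc1 hr hTK hE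
      (nco_convex x e (c * r / 400)).1 (fun v hv => le_trans hv (le_abs_self _)) ⟨hz, h1⟩
      ⟨mem_closedBall.2 (by linarith), ?_⟩⟩
    show c * r / 400 ≤ nco x e (upP x e r)
    linarith
  · refine ⟨_, Or.inr rfl, hloc.2 (by linarith), side_Jump h he hc hc1 hr hTK hE
      (nco_convex x e (c * r / 400)).2 (fun v hv => ?_) ⟨hz, ?_⟩
      ⟨mem_closedBall.2 (by linarith), ?_⟩⟩
    · have h2 : nco x e v ≤ -(c * r / 400) := hv
      exact le_abs.2 (Or.inr (by linarith))
    · show nco x e z ≤ -(c * r / 400)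
      linarith
    · show nco x e (dnP x e r) ≤ -(c * r / 400)
      linarith

/-- Jump lemma: a flat piece of `K` with small energy carries a jump or separates. -/
theorem Jump {c : ℝ} (hc : 0 < c) : ∃ ηJ δJ j : ℝ, 0 < ηJ ∧ ηJ ≤ 1 / 100 ∧ 0 < δJ ∧ 0 < j ∧
    ∀ (Ω : Set ℂ) (ε : ℝ) (wk : Prop) (u : ℂ → ℝ) (K : Set ℂ), AM Ω ε wk c u K →
    ∀ (x e : ℂ) (r R : ℝ), x ∈ K → ‖e‖ = 1 → 0 < r → 2 * r ≤ R → closedBall x R ⊆ Ω →
      K ∩ closedBall x (2 * r) ⊆ strip x e (ηJ * r) →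
      Dir u (ball x (2 * r) \ strip x e (2 * ηJ * r)) ≤ ENNReal.ofReal (δJ * r) →
      ε * R * √R ≤ δJ * r →
      j * √r ≤ |u (upP x e r) - u (dnP x e r)| ∨ (wk ∧ SepUD Ω K x e r R) := by
  classical
  have hc0 : 0 < min c 1 := lt_min hc one_pos
  refine ⟨min c 1 / 2000, min c 1 ^ 4 / 10 ^ 12, min c 1 ^ 2 / 10 ^ 4, by positivity,
    by linarith [min_le_right c 1], by positivity, by positivity, ?_⟩
  intro Ω ε wk u K h x e r R hx he hr hR hB hstrip hE hε
  have hc1 := h.cle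
  rw [min_eq_left hc1] at hstrip hE hε ⊢
  by_contra hcon
  rw [not_or, not_le] at hcon
  obtain ⟨hJ, hns⟩ := hcon
  have hcr : c * r ≤ r := by nlinarith
  have hcr0 : 0 < c * r := by positivity
  have hTK : ball x (2 * r) \ strip x e (2 * (c / 2000) * r) ⊆ Ω \ K := by
    intro z hz
    refine ⟨hB (closedBall_subset_closedBall hR (ball_subset_closedBall hz.1)), fun hK => hz.2 ?_⟩
    have h1 : |nco x e z| ≤ c / 2000 * r := hstrip ⟨hK, ball_subset_closedBall hz.1⟩
    show |nco x e z| ≤ 2 * (c / 2000) * r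
    linarith
  set Z : Finset ℂ := {x + r * e, x - r * e} with hZdef
  set w := jramp x e (c * r / 800) (u (dnP x e r)) (u (upP x e r)) with hwdef
  have hZ : ∀ p ∈ Z, p ∈ sphere x r := by
    intro p hp
    rcases Finset.mem_insert.1 hp with hp | hp
    · simp [hp, he, hr.le]
    · simp [Finset.mem_singleton.1 hp, he, hr.le]
  have hnc : ∀ z ∈ collar x r (c * r / 100 / 2) (c * r / 100) Z, c * r / 400 ≤ |nco x e z| := by
    intro z hz
    have := collar_nco he x (show 0 < c * r / 100 by positivity) (by linarith)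
      (show x + r * e ∈ Z by simp [hZdef]) (show x - r * e ∈ Z by simp [hZdef]) hz
    linarith
  have hcol := fun z (hz : z ∈ collar x r (c * r / 100 / 2) (c * r / 100) Z) =>
    col_Jump h.toAM0 he hc hc1 hr hTK hE (mem_closedBall.2 hz.2.1) (hnc z hz)
  have hcT : collar x r (c * r / 100 / 2) (c * r / 100) Z ⊆
      ball x (2 * r) \ strip x e (2 * (c / 2000) * r) := fun z hz =>
    ball_Jump he x hc hc1 hr (mem_closedBall.2 hz.2.1) (hnc z hz) (mem_ball_self (by positivity))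
  have hw : LocallyLipschitzOn (closedBall x r \ ∅) w := by
    have h1 : LipschitzWith (Real.toNNReal
        (|u (upP x e r) - u (dnP x e r)| / (2 * (c * r / 800)))) w := by
      refine LipschitzWith.of_dist_le_mul fun z z' => ?_
      rw [Real.coe_toNNReal _ (by positivity), Real.dist_eq]
      exact ramp_lip he x (by positivity) _ _ z z'
    exact h1.locallyLipschitz.locallyLipschitzOn
  have hG := GLUE h.toAM0 (y := x) (s := r) (δ := c * r / 100 / 2) (ρ := c * r / 100) (R := R)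
    (η := 1) (σ := c / 500 * √r) (by positivity) (by linarith) (by positivity) (by linarith) hB
    one_pos hZ isClosed_empty hw (disjoint_left.2 fun z hz => (hTK (hcT hz)).2) (disjoint_empty _)
    (fun z hz => by
      obtain ⟨q, -, h1, h2, -⟩ := hcol z hz
      rw [show w z = u q from h1.self_of_nhds]
      exact h2)
    (fun hwk κ hκ => by
      have h1 : ¬SepUD Ω K x e r R := fun hh => hns ⟨hwk, hh⟩
      unfold SepUD at h1
      push Not at h1
      obtain ⟨κ', h2, h3, h4⟩ := h1 κ hκ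
      refine ⟨fun _ => κ' (upP x e r), κ', fun _ _ => Eventually.of_forall fun _ => rfl,
        fun z hz => h2 z hz.1, fun z hz => ?_, h3⟩
      obtain ⟨q, hq, -, -, h5⟩ := hcol z hz
      rcases hq with rfl | rfl
      · exact (h5 κ' h2).symm
      · exact h4.trans (h5 κ' h2).symm)
  have h1 : Dir (fun z => u z - w z) (collar x r (c * r / 100 / 2) (c * r / 100) Z) ≤
      ENNReal.ofReal (c ^ 4 / 10 ^ 12 * r) := by
    refine le_trans ?_ ((lintegral_mono_set hcT).trans hE)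
    refine setLIntegral_mono' (collar_vol x (by positivity) (by linarith) _ Z).1 fun z hz => ?_
    obtain ⟨q, -, h1, -, -⟩ := hcol z hz
    have e1 : (fun z => u z - w z) =ᶠ[𝓝 z] fun z => u z - u q := by
      filter_upwards [h1] with v hv
      rw [show w v = u q from hv]
    rw [e1.fderiv_eq, fderiv_sub_const]
  have h2 := ramp_dir he x (show 0 < c * r / 800 by positivity) hr (u (dnP x e r)) (u (upP x e r))
  have h3 : ENNReal.ofReal (c * r) ≤ En u K (closedBall x r) :=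
    ((h.dens x hx r hr ((closedBall_subset_closedBall (by linarith)).trans hB)).trans
      (measure_mono (inter_subset_inter_right _ ball_subset_closedBall))).trans le_add_self
  rw [sdiff_empty, empty_inter, measure_empty, add_zero] at hG
  have hε0 : 0 ≤ ε * R * √R := mul_nonneg (mul_nonneg h.eps (by linarith)) (Real.sqrt_nonneg _)
  have h4 := h3.trans (hG.trans (add_le_add_left (add_le_add_left (add_le_add
    (mul_le_mul_right h2 _) (mul_le_mul_right (add_le_add_left h1 _) _)) _) _))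
  rw [← ENNReal.ofReal_mul (by norm_num), ← ENNReal.ofReal_add (by positivity) (by positivity),
    ← ENNReal.ofReal_mul (by norm_num), ← ENNReal.ofReal_add (by positivity) (by positivity),
    ← ENNReal.ofReal_add (by positivity) (by positivity),
    ← ENNReal.ofReal_add (by positivity) hε0, ENNReal.ofReal_le_ofReal_iff (by positivity)] at h4
  have h5 : (Z.card : ℝ) ≤ 2 := by exact_mod_cast Finset.card_le_two
  exact absurd h4 (not_le.2 (num_Jump hc hc1 hr hJ hε h5))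

end Vale.Agent.P128
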