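import Vale.Agent.P128.TC.Cone
import Vale.Agent.P128.TC.Jump

/-! P128 block TC: competitors. The frozen interface statements live, unchanged, in the files
Cone (`T6`, `T6_chord`), Glue (`GLUE`), Jump (`Jump`), Osc (`osc_convex`). -/
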