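import Vale.Agent.P128.TC.ArcO

/-! P128 TC/ArcM. Helper lemma names end with _ArcM.
Put R p q := ∃ a b, p = circleMap y s a ∧ q = circleMap y s b ∧ ∀ θ ∈ uIcc a b, circleMap y s θ ∉ K. It is symmetric and transitive
(circleMap_eq_circleMap_iff gives an integer multiple of 2π; shift the second interval, periodic_circleMap, Function.Periodic.int_mul;
uIcc_subset_uIcc_union_uIcc), and R p p for p on the circle off K (range_circleMap). Put m p = u (Classical.epsilon (R p)); R p q gives R p = R q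
as predicates, so m p = m q, and R p (epsilon (R p)) by Classical.epsilon_spec.
osc: if R p q with |a - b| ≤ 2π use arc_osc (in the right order). Otherwise every angle is off K (toIcoMod), replace b by toIcoMod two_pi_pos a b.
lc: p = circleMap y s a, Icc (a - η) (a + η) is off K for a small η < π (K closed). The image C of Icc (a + η) (a - η + 2π) is compact and misses p
(eq_of_circleMap_eq), so Cᶜ is a neighbourhood of p, and each q on the circle is circleMap y s b with b in Ico (a - η) (a - η + 2π) (toIcoMod). -/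

namespace Vale.Agent.P128

open MeasureTheory Set Metric Filter Topology
open scoped ENNReal

/-- Two points of the circle joined by an arc that misses `K`. -/
def rel_ArcM (K : Set ℂ) (y : ℂ) (s : ℝ) (p q : ℂ) : Prop :=
  ∃ a b : ℝ, p = circleMap y s a ∧ q = circleMap y s b ∧ ∀ θ ∈ uIcc a b, circleMap y s θ ∉ K

theorem rel_symm_ArcM {K : Set ℂ} {y : ℂ} {s : ℝ} {p q : ℂ} (h : rel_ArcM K y s p q) :
    rel_ArcM K y s q p := by
  obtain ⟨a, b, hp, hq, hab⟩ := h
  exact ⟨b, a, hq, hp, fun θ hθ => hab θ (by rwa [uIcc_comm])⟩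

theorem per_ArcM (y : ℂ) (s θ : ℝ) (n : ℤ) :
    circleMap y s (θ + n * (2 * Real.pi)) = circleMap y s θ :=
  (periodic_circleMap y s).int_mul n θ

theorem shift_ArcM {y : ℂ} {s : ℝ} (hs : 0 < s) {a b : ℝ}
    (h : circleMap y s a = circleMap y s b) : ∃ n : ℤ, a = b + n * (2 * Real.pi) := by
  obtain ⟨n, hn⟩ := (circleMap_eq_circleMap_iff y hs.ne').1 h
  refine ⟨n, ?_⟩
  have h2 := congrArg Complex.im hn
  simpa using h2

theorem rel_trans_ArcM {K : Set ℂ} {y : ℂ} {s : ℝ} (hs : 0 < s) {p q r : ℂ}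
    (h1 : rel_ArcM K y s p q) (h2 : rel_ArcM K y s q r) : rel_ArcM K y s p r := by
  obtain ⟨a, b, hp, hq, hab⟩ := h1
  obtain ⟨c, d, hq', hr, hcd⟩ := h2
  obtain ⟨n, hn⟩ := shift_ArcM hs (hq.symm.trans hq')
  refine ⟨a, d + n * (2 * Real.pi), hp, by rw [per_ArcM]; exact hr, fun θ hθ => ?_⟩
  rcases uIcc_subset_uIcc_union_uIcc (b := b) hθ with h | h
  · exact hab θ h
  · have h3 : θ - n * (2 * Real.pi) ∈ uIcc c d := by
      rw [hn] at h
      rcases mem_uIcc.1 h with h | h
      · exact mem_uIcc.2 (Or.inl ⟨by linarith [h.1], by linarith [h.2]⟩)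
      · exact mem_uIcc.2 (Or.inr ⟨by linarith [h.1], by linarith [h.2]⟩)
    have h4 := hcd _ h3
    rw [← per_ArcM y s _ n, sub_add_cancel] at h4
    exact h4

theorem rel_refl_ArcM {K : Set ℂ} {y : ℂ} {s : ℝ} (hs : 0 < s) {p : ℂ}
    (hp : p ∈ sphere y s \ K) : rel_ArcM K y s p p := by
  have h1 : p ∈ range (circleMap y s) := by
    rw [range_circleMap, abs_of_pos hs]
    exact hp.1
  obtain ⟨a, ha⟩ := h1
  refine ⟨a, a, ha.symm, ha.symm, fun θ hθ => ?_⟩
  rw [uIcc_self, mem_singleton_iff] at hθ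
  rw [hθ, ha]
  exact hp.2

theorem rel_short_ArcM {K : Set ℂ} {y : ℂ} {s : ℝ} {p q : ℂ} (h : rel_ArcM K y s p q) :
    ∃ a b : ℝ, a ≤ b ∧ b ≤ a + 2 * Real.pi ∧ (∀ θ ∈ Icc a b, circleMap y s θ ∉ K) ∧
      ((p = circleMap y s a ∧ q = circleMap y s b) ∨
        (q = circleMap y s a ∧ p = circleMap y s b)) := by
  have key : ∀ {p q : ℂ} {a b : ℝ}, a ≤ b → p = circleMap y s a → q = circleMap y s b →
      (∀ θ ∈ Icc a b, circleMap y s θ ∉ K) →
      ∃ b' : ℝ, a ≤ b' ∧ b' ≤ a + 2 * Real.pi ∧ (∀ θ ∈ Icc a b', circleMap y s θ ∉ K) ∧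
        q = circleMap y s b' := by
    intro p q a b hab _ hq hK
    by_cases hb : b ≤ a + 2 * Real.pi
    · exact ⟨b, hab, hb, hK, hq⟩
    · push Not at hb
      have hm := toIcoMod_mem_Ico Real.two_pi_pos a b
      refine ⟨toIcoMod Real.two_pi_pos a b, hm.1, hm.2.le, fun θ hθ =>
        hK θ ⟨hθ.1, by linarith [hθ.2, hm.2]⟩, ?_⟩
      have h5 := toIcoMod_add_toIcoDiv_zsmul Real.two_pi_pos a b
      rw [zsmul_eq_mul] at h5
      rw [hq, ← per_ArcM y s (toIcoMod Real.two_pi_pos a b) (toIcoDiv Real.two_pi_pos a b), h5]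
  obtain ⟨a, b, hp, hq, hab⟩ := h
  rcases le_total a b with hle | hle
  · rw [uIcc_of_le hle] at hab
    obtain ⟨b', h1, h2, h3, h4⟩ := key hle hp hq hab
    exact ⟨a, b', h1, h2, h3, Or.inl ⟨hp, h4⟩⟩
  · rw [uIcc_of_ge hle] at hab
    obtain ⟨b', h1, h2, h3, h4⟩ := key hle hq hp hab
    exact ⟨b, b', h1, h2, h3, Or.inr ⟨hq, h4⟩⟩

theorem param_ArcM {y : ℂ} {s : ℝ} (hs : 0 < s) (a : ℝ) {q : ℂ} (hq : q ∈ sphere y s) :
    q = circleMap y s (a + Complex.arg ((q - y) / (circleMap y s a - y))) := by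
  have hn : ‖circleMap y s a - y‖ = s := by
    rw [circleMap_sub_center, norm_circleMap_zero, abs_of_pos hs]
  have hne : circleMap y s a - y ≠ 0 := by
    intro h
    rw [h, norm_zero] at hn
    exact hs.ne hn
  have hq1 : ‖q - y‖ = s := by simpa [dist_eq_norm] using hq
  have h1 : ‖(q - y) / (circleMap y s a - y)‖ = 1 := by
    rw [norm_div, hn, hq1, div_self hs.ne']
  have h2 := Complex.norm_mul_exp_arg_mul_I ((q - y) / (circleMap y s a - y))
  rw [h1, Complex.ofReal_one, one_mul] at h2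
  have h3 : circleMap y s a - y = s * Complex.exp (a * Complex.I) := by
    simp [circleMap]
  have h4 : ∀ t : ℝ, circleMap y s (a + t) =
      y + (circleMap y s a - y) * Complex.exp (t * Complex.I) := by
    intro t
    rw [h3]
    simp only [circleMap, Complex.ofReal_add, add_mul, Complex.exp_add]
    ring
  rw [h4, h2, mul_div_cancel₀ _ hne]
  ring

theorem rel_near_ArcM {K : Set ℂ} (hK : IsClosed K) {y : ℂ} {s : ℝ} (hs : 0 < s) {p : ℂ}
    (hp : p ∈ sphere y s \ K) : ∀ᶠ q in 𝓝[sphere y s] p, rel_ArcM K y s p q := by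
  have h1 : p ∈ range (circleMap y s) := by
    rw [range_circleMap, abs_of_pos hs]
    exact hp.1
  obtain ⟨a, ha⟩ := h1
  have hne : circleMap y s a - y ≠ 0 := by
    intro h
    have hn : ‖circleMap y s a - y‖ = s := by
      rw [circleMap_sub_center, norm_circleMap_zero, abs_of_pos hs]
    rw [h, norm_zero] at hn
    exact hs.ne hn
  have hopen : IsOpen (circleMap y s ⁻¹' Kᶜ) :=
    hK.isOpen_compl.preimage (continuous_circleMap y s)
  have hain : a ∈ circleMap y s ⁻¹' Kᶜ := by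
    rw [mem_preimage, ha]
    exact hp.2
  obtain ⟨η, hη, hball⟩ := Metric.isOpen_iff.1 hopen a hain
  have hc1 : ContinuousAt (fun q : ℂ => (q - y) / (circleMap y s a - y)) p := by fun_prop
  have hv : (p - y) / (circleMap y s a - y) = 1 := by
    rw [← ha]
    exact div_self hne
  have hc2 : ContinuousAt Complex.arg ((p - y) / (circleMap y s a - y)) := by
    rw [hv]
    exact Complex.continuousAt_arg Complex.one_mem_slitPlane
  have hc3 : ContinuousAt (fun q : ℂ => Complex.arg ((q - y) / (circleMap y s a - y))) p :=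
    ContinuousAt.comp (f := fun q : ℂ => (q - y) / (circleMap y s a - y)) hc2 hc1
  have hev : ∀ᶠ q in 𝓝 p, |Complex.arg ((q - y) / (circleMap y s a - y))| < η := by
    have h5 := (Metric.tendsto_nhds.1 hc3) η hη
    filter_upwards [h5] with q hq
    rw [hv, Complex.arg_one, Real.dist_eq, sub_zero] at hq
    exact hq
  filter_upwards [mem_nhdsWithin_of_mem_nhds hev, self_mem_nhdsWithin] with q hq hqs
  refine ⟨a, _, ha.symm, param_ArcM hs a hqs, fun θ hθ => ?_⟩
  apply hball
  rw [mem_ball, Real.dist_eq]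
  obtain ⟨hq1, hq2⟩ := abs_lt.1 hq
  rcases mem_uIcc.1 hθ with h | h
  · exact abs_lt.2 ⟨by linarith [h.1], by linarith [h.2]⟩
  · exact abs_lt.2 ⟨by linarith [h.1], by linarith [h.2]⟩

theorem exists_arcm {U K : Set ℂ} (hK : IsClosed K) {u : ℂ → ℝ}
    (hd : ∀ z ∈ U, DifferentiableAt ℝ u z) (hc : ContinuousOn (fderiv ℝ u) U) {y : ℂ} {s : ℝ}
    (hs : 0 < s) (hU : sphere y s \ K ⊆ U) : ∃ m, ArcM u K y s m := by
  refine ⟨fun p => u (Classical.epsilon (rel_ArcM K y s p)), ?_, ?_⟩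
  · intro p hp
    filter_upwards [rel_near_ArcM hK hs hp] with q hq
    have h1 : rel_ArcM K y s q = rel_ArcM K y s p := by
      funext r
      exact propext ⟨fun h => rel_trans_ArcM hs hq h, fun h => rel_trans_ArcM hs (rel_symm_ArcM hq) h⟩
    rw [h1]
  · intro p hp
    have h1 : rel_ArcM K y s p (Classical.epsilon (rel_ArcM K y s p)) :=
      Classical.epsilon_spec ⟨p, rel_refl_ArcM hs hp⟩
    obtain ⟨a, b, hab, hb, hG, h⟩ := rel_short_ArcM h1
    have h2 := arc_osc hK hd hc hs hU hab hb hG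
    rcases h with ⟨h3, h4⟩ | ⟨h3, h4⟩
    · rw [← h3, ← h4] at h2
      rw [← neg_sub, neg_sq]
      exact h2
    · rw [← h3, ← h4] at h2
      exact h2

end Vale.Agent.P128
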