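import Vale.Agent.P128.TC.Defs

/-! P128 TC/ArcO. Helper lemma names end with _ArcO.
lint_window: the function g θ = G (circleMap y s θ) is periodic (periodic_circleMap); AddCircle.lintegral_preimage applied to
Function.Periodic.lift (Fact (0 < 2π), Function.Periodic.lift_coe) shows that the integrals of g over Ioc a (a + 2π) and over Ioc (-π) (-π + 2π) agree.
sq_sub_le_c: with μ = (f b - f a) / (b - a) expand 0 ≤ ∫ (f' - μ)^2 (intervalIntegral.integral_eq_sub_of_hasDerivAt); the case a = b is trivial.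
arc_osc: f θ = u (circleMap y s θ) has derivative fderiv u (circleMap y s θ) (circleMap 0 s θ * I) (hasDerivAt_circleMap), of square at most
s * (s * ‖fderiv u‖^2); ofReal_integral_eq_lintegral_ofReal; lint_window with G = Kᶜ.indicator (fun p => ofReal s * ‖fderiv u p‖ₑ^2)
(measurable_fderiv), whose integral over Ioc (-π) π is Dp (lintegral_indicator, Measure.restrict_restrict). -/

namespace Vale.Agent.P128

open MeasureTheory Set Metric Filter Topology
open scoped ENNReal

theorem lint_window {G : ℂ → ℝ≥0∞} (y : ℂ) (s : ℝ) {a b : ℝ} (hab : b ≤ a + 2 * Real.pi) :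
    ∫⁻ θ in Ioc a b, G (circleMap y s θ) ≤ ∫⁻ θ in Ioc (-Real.pi) Real.pi, G (circleMap y s θ) := by
  have : Fact (0 < 2 * Real.pi) := ⟨Real.two_pi_pos⟩
  have hp : Function.Periodic (fun θ => G (circleMap y s θ)) (2 * Real.pi) :=
    (periodic_circleMap y s).comp G
  have h1 : ∀ t : ℝ, ∫⁻ θ in Ioc t (t + 2 * Real.pi), G (circleMap y s θ) =
      ∫⁻ b : AddCircle (2 * Real.pi), hp.lift b := fun t =>
    AddCircle.lintegral_preimage (2 * Real.pi) t hp.lift
  have h2 := h1 (-Real.pi)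
  rw [show -Real.pi + 2 * Real.pi = Real.pi by ring] at h2
  rw [h2, ← h1 a]
  exact lintegral_mono_set (Ioc_subset_Ioc_right hab)

theorem sq_sub_le_c {f f' : ℝ → ℝ} {a b : ℝ} (hab : a ≤ b) (hd : ∀ t ∈ Icc a b, HasDerivAt f (f' t) t)
    (hc : ContinuousOn f' (Icc a b)) : (f b - f a) ^ 2 ≤ (b - a) * ∫ t in a..b, f' t ^ 2 := by
  rcases hab.eq_or_lt with rfl | hlt
  · simp
  have hL : 0 < b - a := sub_pos.2 hlt
  rw [← uIcc_of_le hab] at hd hc
  have i1 : IntervalIntegrable f' volume a b := hc.intervalIntegrable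
  have i2 : IntervalIntegrable (fun t => f' t ^ 2) volume a b := (hc.pow 2).intervalIntegrable
  have e1 : ∫ t in a..b, f' t = f b - f a := intervalIntegral.integral_eq_sub_of_hasDerivAt hd i1
  obtain ⟨m, hm⟩ : ∃ m, f b - f a = m * (b - a) := ⟨(f b - f a) / (b - a), by field_simp⟩
  have h0 : 0 ≤ ∫ t in a..b, (f' t ^ 2 - 2 * m * f' t + m ^ 2) :=
    intervalIntegral.integral_nonneg hab fun t _ => by nlinarith [sq_nonneg (f' t - m)]
  rw [intervalIntegral.integral_add (i2.sub (i1.const_mul _)) intervalIntegrable_const,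
    intervalIntegral.integral_sub i2 (i1.const_mul _), intervalIntegral.integral_const_mul, e1,
    intervalIntegral.integral_const, smul_eq_mul, hm] at h0
  rw [hm]
  nlinarith [mul_nonneg hL.le h0]

theorem arc_osc {U K : Set ℂ} (hK : IsClosed K) {u : ℂ → ℝ}
    (hd : ∀ z ∈ U, DifferentiableAt ℝ u z) (hc : ContinuousOn (fderiv ℝ u) U) {y : ℂ} {s : ℝ}
    (hs : 0 < s) (hU : sphere y s \ K ⊆ U) {a b : ℝ} (hab : a ≤ b) (hb : b ≤ a + 2 * Real.pi)
    (hG : ∀ θ ∈ Icc a b, circleMap y s θ ∉ K) :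
    ENNReal.ofReal ((u (circleMap y s b) - u (circleMap y s a)) ^ 2) ≤
      ENNReal.ofReal (2 * Real.pi * s) * Dp u K y s := by
  have hm : ∀ θ ∈ Icc a b, circleMap y s θ ∈ U := fun θ hθ =>
    hU ⟨circleMap_mem_sphere y hs.le θ, hG θ hθ⟩
  have h1 : ∀ θ ∈ Icc a b, HasDerivAt (fun θ => u (circleMap y s θ))
      (fderiv ℝ u (circleMap y s θ) (circleMap 0 s θ * Complex.I)) θ := fun θ hθ =>
    (hd _ (hm θ hθ)).hasFDerivAt.comp_hasDerivAt θ (hasDerivAt_circleMap y s θ)
  have h2 : ContinuousOn (fun θ => fderiv ℝ u (circleMap y s θ) (circleMap 0 s θ * Complex.I))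
      (Icc a b) :=
    (hc.comp (continuous_circleMap y s).continuousOn hm).clm_apply
      ((continuous_circleMap 0 s).mul continuous_const).continuousOn
  have h3 := sq_sub_le_c hab h1 h2
  have h4 : ENNReal.ofReal (∫ θ in a..b,
      fderiv ℝ u (circleMap y s θ) (circleMap 0 s θ * Complex.I) ^ 2) = ∫⁻ θ in Ioc a b,
        ENNReal.ofReal (fderiv ℝ u (circleMap y s θ) (circleMap 0 s θ * Complex.I) ^ 2) := by
    rw [intervalIntegral.integral_of_le hab]
    exact ofReal_integral_eq_lintegral_ofReal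
      ((h2.pow 2).integrableOn_Icc.mono_set Ioc_subset_Icc_self)
      (Eventually.of_forall fun _ => sq_nonneg _)
  have hO : MeasurableSet (circleMap y s ⁻¹' Kᶜ) :=
    (hK.isOpen_compl.preimage (continuous_circleMap y s)).measurableSet
  have h5 : ∫⁻ θ in Ioc (-Real.pi) Real.pi,
      Kᶜ.indicator (fun p => ENNReal.ofReal s * ‖fderiv ℝ u p‖ₑ ^ 2) (circleMap y s θ) =
        Dp u K y s := by
    have e : offK K y s = circleMap y s ⁻¹' Kᶜ ∩ Ioc (-Real.pi) Real.pi := by
      ext θ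
      exact and_comm
    rw [Dp, e, ← Measure.restrict_restrict hO, ← lintegral_indicator hO]
    rfl
  have h6 : ∫⁻ θ in Ioc a b,
      ENNReal.ofReal (fderiv ℝ u (circleMap y s θ) (circleMap 0 s θ * Complex.I) ^ 2) ≤
        ENNReal.ofReal s * Dp u K y s := by
    rw [← h5]
    refine le_trans ?_ (mul_le_mul_right (lint_window y s hb) _)
    rw [← lintegral_const_mul' _ _ ENNReal.ofReal_ne_top]
    refine setLIntegral_mono' measurableSet_Ioc fun θ hθ => ?_
    rw [indicator_of_mem (show circleMap y s θ ∈ Kᶜ from hG θ (Ioc_subset_Icc_self hθ)),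
      ← ofReal_norm, ← ENNReal.ofReal_pow (norm_nonneg _), ← ENNReal.ofReal_mul hs.le,
      ← ENNReal.ofReal_mul hs.le]
    refine ENNReal.ofReal_le_ofReal ?_
    have h7 := (fderiv ℝ u (circleMap y s θ)).le_opNorm (circleMap 0 s θ * Complex.I)
    rw [norm_mul, Complex.norm_I, norm_circleMap_zero, abs_of_pos hs, mul_one,
      Real.norm_eq_abs] at h7
    have h8 := pow_le_pow_left₀ (abs_nonneg _) h7 2
    rw [sq_abs] at h8
    nlinarith
  have h9 : 0 ≤ ∫ θ in a..b, fderiv ℝ u (circleMap y s θ) (circleMap 0 s θ * Complex.I) ^ 2 :=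
    intervalIntegral.integral_nonneg hab fun _ _ => sq_nonneg _
  refine (ENNReal.ofReal_le_ofReal (h3.trans
    (mul_le_mul_of_nonneg_right (show b - a ≤ 2 * Real.pi by linarith) h9))).trans ?_
  rw [ENNReal.ofReal_mul Real.two_pi_pos.le, ENNReal.ofReal_mul Real.two_pi_pos.le, h4, mul_assoc]
  exact mul_le_mul_right h6 _

end Vale.Agent.P128
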