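import Vale.Agent.P128.TC.Psi

/-! P128 TC/Chg. Helper lemma names end with _Chg.
vol_image_lip: on ℂ the measure μH[2] is a Haar measure (isAddHaarMeasure_hausdorffMeasure with Complex.finrank_real_complex), so volume is a
multiple of it (Measure.isAddLeftInvariant_eq_smul); use LipschitzWith.hausdorffMeasure_image_le.
lint_pinv: Φ ⁻¹' B = Psi '' B, so Measure.map Φ volume ≤ ofReal (9/4) • volume (Measure.le_iff, cpsi_lip); bound the left side by the integral of
(A.indicator F) (Φ z) over the plane, then lintegral_map, lintegral_mono', lintegral_smul_measure, lintegral_indicator.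
fderiv_comp_lip: le_of_forall_pos_le_add and norm_fderiv_le_of_lip'; for η > 0 eventually ‖g w - g (Φ z)‖ ≤ (‖fderiv g‖ + η) ‖w - Φ z‖
(HasFDerivAt.isLittleO), pulled back by continuity of Φ. -/

namespace Vale.Agent.P128

open MeasureTheory Set Metric Filter Topology
open scoped ENNReal

theorem vol_image_lip {f : ℂ → ℂ} {C : NNReal} (hf : LipschitzWith C f) (B : Set ℂ) :
    volume (f '' B) ≤ (C : ℝ≥0∞) ^ 2 * volume B := by
  have h1 := isAddHaarMeasure_hausdorffMeasure (E := ℂ)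
  have h2 := hf.hausdorffMeasure_image_le (d := (Module.finrank ℝ ℂ : ℝ)) (Nat.cast_nonneg _) B
  rw [Measure.isAddLeftInvariant_eq_smul (volume : Measure ℂ) μH[(Module.finrank ℝ ℂ : ℝ)],
    Measure.smul_apply, Measure.smul_apply, ENNReal.smul_def, ENNReal.smul_def, smul_eq_mul,
    smul_eq_mul, mul_left_comm]
  refine mul_le_mul_right (h2.trans_eq ?_) _
  rw [ENNReal.rpow_natCast, Complex.finrank_real_complex]

theorem lint_pinv {y O : ℂ} {s : ℝ} {Φ : ℂ → ℂ} (h : PInv y O s Φ) (hs : 0 < s)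
    (hO : O ∈ closedBall y (s / 2)) {F : ℂ → ℝ≥0∞} (hF : Measurable F) {S A : Set ℂ}
    (hS : MeasurableSet S) (hA : MeasurableSet A) (hSA : ∀ z ∈ S, Φ z ∈ A) :
    ∫⁻ z in S, F (Φ z) ≤ ENNReal.ofReal (9 / 4) * ∫⁻ z in A, F z := by
  have hm : Measurable Φ := h.lip.continuous.measurable
  have hl : LipschitzWith (3 / 2) (Psi y O s) :=
    LipschitzWith.of_dist_le_mul fun z z' => by simpa using (cpsi_lip hs hO z z').2
  have hle : Measure.map Φ volume ≤ ENNReal.ofReal (9 / 4) • (volume : Measure ℂ) := by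
    refine Measure.le_iff.2 fun B hB => ?_
    rw [Measure.map_apply hm hB, Measure.smul_apply, smul_eq_mul]
    refine (measure_mono (t := Psi y O s '' B) fun z hz => ⟨Φ z, hz, h.right z⟩).trans
      ((vol_image_lip hl B).trans_eq ?_)
    congr 1
    rw [← ENNReal.coe_pow, ← ENNReal.ofReal_coe_nnreal]
    congr 1
    push_cast
    norm_num
  calc ∫⁻ z in S, F (Φ z) = ∫⁻ z in S, A.indicator F (Φ z) :=
        setLIntegral_congr_fun hS fun z hz => (indicator_of_mem (hSA z hz) F).symm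
    _ ≤ ∫⁻ z, A.indicator F (Φ z) := setLIntegral_le_lintegral _ _
    _ = ∫⁻ z, A.indicator F z ∂(Measure.map Φ volume) := (lintegral_map (hF.indicator hA) hm).symm
    _ ≤ ∫⁻ z, A.indicator F z ∂(ENNReal.ofReal (9 / 4) • (volume : Measure ℂ)) :=
        lintegral_mono' hle le_rfl
    _ = _ := by rw [lintegral_smul_measure, lintegral_indicator hA, smul_eq_mul]

theorem fderiv_comp_lip {g : ℂ → ℝ} {Φ : ℂ → ℂ} (hΦ : LipschitzWith 2 Φ) {z : ℂ}
    (hg : DifferentiableAt ℝ g (Φ z)) :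
    ‖fderiv ℝ (fun w => g (Φ w)) z‖ ≤ 2 * ‖fderiv ℝ g (Φ z)‖ := by
  refine le_of_forall_pos_le_add fun η hη => ?_
  refine norm_fderiv_le_of_lip' ℝ (by positivity) ?_
  have h1 := hΦ.continuous.continuousAt.eventually
    (hg.hasFDerivAt.isLittleO.def (half_pos hη))
  filter_upwards [h1] with w hw
  have h2 : ‖Φ w - Φ z‖ ≤ 2 * ‖w - z‖ := by simpa [dist_eq_norm] using hΦ.dist_le_mul w z
  have h3 := (fderiv ℝ g (Φ z)).le_opNorm (Φ w - Φ z)
  have h4 := norm_le_norm_sub_add (g (Φ w) - g (Φ z)) (fderiv ℝ g (Φ z) (Φ w - Φ z))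
  have h5 := mul_le_mul_of_nonneg_left h2 (add_nonneg (half_pos hη).le
    (norm_nonneg (fderiv ℝ g (Φ z))))
  linarith

theorem LipAt.comp_lip {g : ℂ → ℝ} {Φ : ℂ → ℂ} (hΦ : LipschitzWith 2 Φ) {z : ℂ}
    (hg : LipAt g (Φ z)) : LipAt (fun w => g (Φ w)) z := by
  obtain ⟨C, t, ht, h⟩ := hg
  exact ⟨C * 2, Φ ⁻¹' t, hΦ.continuous.continuousAt.preimage_mem_nhds ht,
    h.comp hΦ.lipschitzOnWith fun _ hx => hx⟩

end Vale.Agent.P128
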