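import Vale.Agent.P128.TC.Psi

/-! P128 TC/ConeE. Helper lemma names end with _ConeE.
cF_meas: prj is measurable (unfold, fun_prop or measurability), measurable_fderiv, Measurable.indicator.
cF_int: (polar_gen cF_meas y).2 with I = Ioo 0 s; for r in Ioo 0 s use prj_circle and ofReal r ≤ ofReal s. With A = ofReal (4π/s) * Dp the integrand is at
most ofReal s * A + 8 * Kᶜ.indicator (fun p => ofReal s * ‖fderiv u p‖ₑ^2) (circleMap y s θ); its integral over Ioc (-π) π is at most
ofReal s * A * ofReal (2π) + 8 * Dp = (8π^2 + 8) Dp ≤ ofReal 87 * Dp (Real.pi_lt_d2: π < 3.15 is too weak, use Real.pi_lt_d4). Then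
setLIntegral_mono', setLIntegral_const, Real.volume_Ioo. -/

namespace Vale.Agent.P128

open MeasureTheory Set Metric Filter Topology
open scoped ENNReal

theorem cF_meas (u : ℂ → ℝ) {K : Set ℂ} (hK : IsClosed K) (y : ℂ) (s : ℝ) :
    Measurable (cF u K y s) := by
  have h1 : Measurable (prj y s) := by
    unfold prj
    fun_prop
  exact ((measurable_const.add (((measurable_fderiv ℝ u).enorm.pow_const 2).const_mul 8)).indicator
    hK.measurableSet.compl).comp h1

theorem circ_ConeE (u : ℂ → ℝ) {K : Set ℂ} (hK : IsClosed K) (y : ℂ) {s r : ℝ} (hs : 0 < s)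
    (hr : r ∈ Ioo 0 s) : ∫⁻ θ in Ioc (-Real.pi) Real.pi,
      ENNReal.ofReal r * cF u K y s (circleMap y r θ) ≤ ENNReal.ofReal 87 * Dp u K y s := by
  have hO : MeasurableSet (circleMap y s ⁻¹' Kᶜ) :=
    (hK.isOpen_compl.preimage (continuous_circleMap y s)).measurableSet
  have h1 : ∀ θ, ENNReal.ofReal r * cF u K y s (circleMap y r θ) ≤
      ENNReal.ofReal (4 * Real.pi) * Dp u K y s + 8 * (circleMap y s ⁻¹' Kᶜ).indicator
        (fun θ => ENNReal.ofReal s * ‖fderiv ℝ u (circleMap y s θ)‖ₑ ^ 2) θ := by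
    intro θ
    rw [cF, prj_circle y s hr.1]
    by_cases h : circleMap y s θ ∈ Kᶜ
    · rw [indicator_of_mem h, indicator_of_mem (show θ ∈ circleMap y s ⁻¹' Kᶜ from h)]
      refine (mul_le_mul_left (ENNReal.ofReal_le_ofReal hr.2.le) _).trans (le_of_eq ?_)
      rw [mul_add, ← mul_assoc, ← ENNReal.ofReal_mul hs.le, mul_div_cancel₀ _ hs.ne',
        mul_left_comm]
    · rw [indicator_of_notMem h, mul_zero]
      exact zero_le
  have h2 : ∫⁻ θ in Ioc (-Real.pi) Real.pi, (circleMap y s ⁻¹' Kᶜ).indicator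
      (fun θ => ENNReal.ofReal s * ‖fderiv ℝ u (circleMap y s θ)‖ₑ ^ 2) θ = Dp u K y s := by
    rw [setLIntegral_indicator hO, inter_comm]
    rfl
  refine (lintegral_mono h1).trans ?_
  rw [lintegral_add_left measurable_const, lintegral_const_mul' 8 _ (by norm_num), h2,
    setLIntegral_const, Real.volume_Ioc, mul_right_comm, ← ENNReal.ofReal_mul (by positivity),
    ← add_mul, ← ENNReal.ofReal_ofNat 8, ← ENNReal.ofReal_add (by
      have := Real.pi_pos
      nlinarith) (by norm_num)]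
  refine mul_le_mul_left (ENNReal.ofReal_le_ofReal ?_) _
  nlinarith [Real.pi_lt_d4, Real.pi_pos]

theorem cF_int (u : ℂ → ℝ) {K : Set ℂ} (hK : IsClosed K) (y : ℂ) {s : ℝ} (hs : 0 < s) :
    ∫⁻ z in {z | dist z y ∈ Ioo 0 s}, cF u K y s z ≤ ENNReal.ofReal (87 * s) * Dp u K y s := by
  rw [(polar_gen (cF_meas u hK y s) y).2 _ measurableSet_Ioo Ioo_subset_Ioi_self]
  refine (setLIntegral_mono' measurableSet_Ioo fun r hr => circ_ConeE u hK y hs hr).trans ?_
  rw [setLIntegral_const, Real.volume_Ioo, sub_zero, mul_right_comm,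
    ← ENNReal.ofReal_mul (by norm_num)]

end Vale.Agent.P128
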