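import Vale.Agent.P128.TC.ConeC
import Vale.Agent.P128.TC.ConeE
import Vale.Agent.P128.TC.ArcM

/-! P128 TC/Cone. Helper lemma names end with _Cone.
Assembly of the cone competitor. -/

namespace Vale.Agent.P128

open MeasureTheory Set Metric Filter Topology
open scoped ENNReal

theorem dir_Cone {Ω : Set ℂ} {ε : ℝ} {wk : Prop} {u : ℂ → ℝ} {K : Set ℂ} (h : AM0 Ω ε wk u K)
    {y : ℂ} {s : ℝ} (hs : 0 < s) (hB : closedBall y s ⊆ Ω) {P : Finset ℂ}
    (hP : (P : Set ℂ) = K ∩ sphere y s) {O : ℂ} (hO : O ∈ closedBall y (s / 2))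
    {m : ℂ → ℝ} (hm : ArcM u K y s m) {Φ : ℂ → ℂ} (hΦ : PInv y O s Φ) :
    Dir (coneW u m y s Φ) (closedBall y s \ ((K \ closedBall y s) ∪ starS O P)) ≤
      ENNReal.ofReal (1000 * s) * Dp u K y s := by
  have hU : IsOpen (Ω \ K) := h.isOpen.sdiff h.closed
  have hsm := (smooth_of_holo hU h.diff h.holo).1
  have hS : MeasurableSet (ball y s \ starS O P) :=
    measurableSet_ball.diff (starS_closed O P).measurableSet
  have hA : MeasurableSet {z : ℂ | dist z y ∈ Ioo 0 s} :=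
    (continuous_id.dist continuous_const).measurable measurableSet_Ioo
  have hnull : volume (sphere y s) = 0 := Measure.addHaar_sphere volume y s
  have h1 : (closedBall y s \ ((K \ closedBall y s) ∪ starS O P) : Set ℂ) ≤ᵐ[volume]
      (ball y s \ starS O P : Set ℂ) := by
    filter_upwards [measure_eq_zero_iff_ae_notMem.1 hnull] with z hz hz'
    refine ⟨?_, fun hh => hz'.2 (Or.inr hh)⟩
    exact lt_of_le_of_ne (mem_closedBall.1 hz'.1) hz
  have h2 : ∀ z ∈ ball y s \ starS O P,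
      ‖fderiv ℝ (coneW u m y s Φ) z‖ₑ ^ 2 ≤ 4 * cF u K y s (Φ z) := by
    intro z hz
    obtain ⟨hy, hp⟩ := hΦ.off hs hO hP (ball_subset_closedBall hz.1) hz.2
    have hu : ContDiffAt ℝ 1 u (prj y s (Φ z)) :=
      (hsm.contDiffAt (hU.mem_nhds ⟨hB (sphere_subset_closedBall hp.1), hp.2⟩)).of_le
        (by exact_mod_cast le_top)
    have e : coneW u m y s Φ =ᶠ[𝓝 z] fun w => cw u m y s (Φ w) := by
      filter_upwards [isOpen_ball.mem_nhds hz.1] with w hw
      simp only [coneW, if_pos (ball_subset_closedBall hw)]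
    rw [e.fderiv_eq]
    have h3 := fderiv_comp_lip hΦ.lip (cw_lip hs hm hy hp.2 hu).2.1
    have h4 : ‖fderiv ℝ (fun w => cw u m y s (Φ w)) z‖ₑ ≤ 2 * ‖fderiv ℝ (cw u m y s) (Φ z)‖ₑ := by
      rw [← ofReal_norm, ← ofReal_norm, ← ENNReal.ofReal_ofNat 2,
        ← ENNReal.ofReal_mul (by norm_num)]
      exact ENNReal.ofReal_le_ofReal h3
    calc ‖fderiv ℝ (fun w => cw u m y s (Φ w)) z‖ₑ ^ 2
        ≤ (2 * ‖fderiv ℝ (cw u m y s) (Φ z)‖ₑ) ^ 2 := by gcongr
      _ = 4 * ‖fderiv ℝ (cw u m y s) (Φ z)‖ₑ ^ 2 := by ring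
      _ ≤ 4 * cF u K y s (Φ z) := by
        gcongr
        exact cw_sq hs hm hy hp.2 hu
  have h5 := lint_pinv hΦ hs hO (cF_meas u h.closed y s) hS hA (fun z hz => by
    obtain ⟨hy, -⟩ := hΦ.off hs hO hP (ball_subset_closedBall hz.1) hz.2
    exact ⟨dist_pos.2 hy, (hΦ.mem hs hO z).1 hz.1⟩)
  have h6 := cF_int u h.closed y hs
  unfold Dir
  calc ∫⁻ z in closedBall y s \ ((K \ closedBall y s) ∪ starS O P),
        ‖fderiv ℝ (coneW u m y s Φ) z‖ₑ ^ 2
      ≤ ∫⁻ z in ball y s \ starS O P, ‖fderiv ℝ (coneW u m y s Φ) z‖ₑ ^ 2 :=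
        lintegral_mono_set' h1
    _ ≤ ∫⁻ z in ball y s \ starS O P, 4 * cF u K y s (Φ z) := setLIntegral_mono' hS h2
    _ = 4 * ∫⁻ z in ball y s \ starS O P, cF u K y s (Φ z) :=
        lintegral_const_mul' _ _ (by norm_num)
    _ ≤ 4 * (ENNReal.ofReal (9 / 4) * (ENNReal.ofReal (87 * s) * Dp u K y s)) := by
        gcongr
        exact h5.trans (by gcongr)
    _ ≤ ENNReal.ofReal (1000 * s) * Dp u K y s := by
        rw [← mul_assoc, ← mul_assoc, ← ENNReal.ofReal_ofNat 4, ← ENNReal.ofReal_mul (by norm_num),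
          ← ENNReal.ofReal_mul (by norm_num)]
        exact mul_le_mul_left (ENNReal.ofReal_le_ofReal (by linarith)) _

/-- Cone competitor with vertex `O`. -/
theorem T6 {Ω : Set ℂ} {ε : ℝ} {wk : Prop} {u : ℂ → ℝ} {K : Set ℂ} (h : AM0 Ω ε wk u K)
    {y : ℂ} {s : ℝ} (hs : 0 < s) (hB : closedBall y s ⊆ Ω) {P : Finset ℂ}
    (hP : (P : Set ℂ) = K ∩ sphere y s) {O : ℂ} (hO : O ∈ closedBall y (s / 2)) :
    En u K (closedBall y s) ≤ ENNReal.ofReal (∑ p ∈ P, dist p O) +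
      ENNReal.ofReal (1000 * s) * Dp u K y s + ENNReal.ofReal (ε * s * √s) := by
  have hU : IsOpen (Ω \ K) := h.isOpen.sdiff h.closed
  have hsub : sphere y s \ K ⊆ Ω \ K := fun z hz => ⟨hB (sphere_subset_closedBall hz.1), hz.2⟩
  obtain ⟨m, hm⟩ := exists_arcm h.closed h.diff (smooth_of_holo hU h.diff h.holo).2.2.1 hs hsub
  obtain ⟨Φ, hΦ⟩ := exists_pinv hs hO
  have h1 := h.min y s _ _ hs hB (cone_comp h hs hB hP hO hm hΦ)
  refine h1.trans (add_le_add_left ?_ _)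
  unfold En
  rw [add_comm]
  refine add_le_add ?_ (dir_Cone h hs hB hP hO hm hΦ)
  refine le_trans (measure_mono ?_) (starS_len O P)
  rintro z ⟨hz | hz, hz'⟩
  · exact (hz.2 hz').elim
  · exact hz

/-- Chord competitor: two points on the circle. -/
theorem T6_chord {Ω : Set ℂ} {ε : ℝ} {wk : Prop} {u : ℂ → ℝ} {K : Set ℂ} (h : AM0 Ω ε wk u K)
    {y : ℂ} {s : ℝ} (hs : 0 < s) (hB : closedBall y s ⊆ Ω) {p q : ℂ} (hpq : p ≠ q)
    (hP : K ∩ sphere y s = {p, q}) (hd : √3 * s ≤ dist p q) :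
    En u K (closedBall y s) ≤ ENNReal.ofReal (dist p q) +
      ENNReal.ofReal (1000 * s) * Dp u K y s + ENNReal.ofReal (ε * s * √s) := by
  classical
  have hp : p ∈ sphere y s := (hP ▸ (by simp : p ∈ ({p, q} : Set ℂ)) : p ∈ K ∩ sphere y s).2
  have hq : q ∈ sphere y s := (hP ▸ (by simp : q ∈ ({p, q} : Set ℂ)) : q ∈ K ∩ sphere y s).2
  have hO : midpoint ℝ p q ∈ closedBall y (s / 2) := by
    have h1 := parallelogram_law_with_norm ℝ (p - y) (q - y)
    rw [mem_sphere, dist_eq_norm] at hp hq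
    have e1 : midpoint ℝ p q - y = (1 / 2 : ℝ) • ((p - y) + (q - y)) := by
      rw [midpoint_eq_smul_add]
      simp only [invOf_eq_inv, Complex.real_smul]
      push_cast
      ring
    have e2 : ‖p - y - (q - y)‖ = dist p q := by rw [dist_eq_norm]; congr 1; ring
    rw [hp, hq, e2] at h1
    have h3 : 3 * s ^ 2 ≤ dist p q * dist p q := by
      have h4 := mul_self_le_mul_self (by positivity) hd
      have h5 : √3 * √3 = 3 := Real.mul_self_sqrt (by norm_num)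
      nlinarith
    have h6 : ‖p - y + (q - y)‖ ≤ s := by
      refine abs_le_of_sq_le_sq' ?_ hs.le |>.2
      nlinarith
    rw [mem_closedBall, dist_eq_norm, e1, norm_smul, Real.norm_eq_abs, abs_of_pos (by norm_num)]
    linarith
  have h1 := T6 h hs hB (P := {p, q}) (by rw [hP]; simp) hO
  rw [Finset.sum_pair hpq, dist_left_midpoint, dist_right_midpoint] at h1
  have e : ‖(2 : ℝ)‖⁻¹ * dist p q + ‖(2 : ℝ)‖⁻¹ * dist p q = dist p q := by
    rw [Real.norm_eq_abs, abs_of_pos (by norm_num)]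
    ring
  rwa [e] at h1

end Vale.Agent.P128
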