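import Vale.Agent.P128.TC.Psi

/-! P128 TC/Cone0. Helper lemma names end with _Cone0.
Let p = prj y s z, c = m p. Near z one has m (prj y s w) = c (prj_contAt, prj_mem, ArcM.lc, tendsto_nhdsWithin_iff), so cw agrees near z with
g w = c + ‖w - y‖ / s * (u (prj y s w) - c), which is ContDiffAt ℝ 1 at z (ContDiffAt.norm, prj is smooth off y); ContDiffAt.exists_lipschitzOnWith
gives LipAt. For the bound: ‖fderiv (‖· - y‖)‖ ≤ 1 and ‖fderiv (prj y s) z‖ ≤ 2 s / ‖z - y‖ by norm_fderiv_le_of_lip'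
(‖a / ‖a‖ - b / ‖b‖‖ ≤ 2 ‖a - b‖ / ‖b‖ for a, b ≠ 0), then the product and chain rules.
cw_sq: (a + b)^2 ≤ 2 a^2 + 2 b^2 with a = |u p - m p| / s, b = 2 ‖fderiv u p‖, ArcM.osc, ofReal_norm_eq_enorm. -/

namespace Vale.Agent.P128

open MeasureTheory Set Metric Filter Topology
open scoped ENNReal

theorem norm_Cone0 {y z : ℂ} (hz : z ≠ y) : ContDiffAt ℝ 1 (fun w : ℂ => ‖w - y‖) z :=
  (contDiffAt_id.sub contDiffAt_const).norm ℝ (sub_ne_zero.2 hz)

theorem smooth_Cone0 {y z : ℂ} (s : ℝ) (hz : z ≠ y) : ContDiffAt ℝ 1 (prj y s) z :=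
  contDiffAt_const.add ((Complex.ofRealCLM.contDiff.contDiffAt.comp z
    (contDiffAt_const.div (norm_Cone0 hz) (norm_ne_zero_iff.2 (sub_ne_zero.2 hz)))).mul
      (contDiffAt_id.sub contDiffAt_const))

theorem lip_Cone0 {y z w : ℂ} {s : ℝ} (hs : 0 < s) (hz : z ≠ y) (hw : w ≠ y) :
    ‖prj y s w - prj y s z‖ ≤ 2 * s / ‖z - y‖ * ‖w - z‖ := by
  have a0 : 0 < ‖w - y‖ := norm_pos_iff.2 (sub_ne_zero.2 hw)
  have b0 : 0 < ‖z - y‖ := norm_pos_iff.2 (sub_ne_zero.2 hz)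
  have e : prj y s w - prj y s z = ((s / ‖z - y‖ : ℝ) : ℂ) * (w - z) +
      ((s / ‖w - y‖ - s / ‖z - y‖ : ℝ) : ℂ) * (w - y) := by
    rw [prj, prj, Complex.ofReal_sub]
    ring
  have e2 : (s / ‖w - y‖ - s / ‖z - y‖) * ‖w - y‖ = s / ‖z - y‖ * (‖z - y‖ - ‖w - y‖) := by
    field_simp
  have h1 := abs_norm_sub_norm_le (z - y) (w - y)
  rw [sub_sub_sub_cancel_right, norm_sub_rev z w] at h1
  have k0 : 0 < s / ‖z - y‖ := div_pos hs b0
  have h2 : |s / ‖w - y‖ - s / ‖z - y‖| * ‖w - y‖ ≤ s / ‖z - y‖ * ‖w - z‖ := by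
    nth_rewrite 2 [← abs_of_pos a0]
    rw [← abs_mul, e2, abs_mul, abs_of_pos k0]
    exact mul_le_mul_of_nonneg_left h1 k0.le
  rw [e]
  refine (norm_add_le _ _).trans ?_
  rw [norm_mul, norm_mul, Complex.norm_real, Complex.norm_real, Real.norm_eq_abs,
    Real.norm_eq_abs, abs_of_pos k0, mul_div_assoc]
  linarith

theorem cw_sphere (u m : ℂ → ℝ) {y z : ℂ} {s : ℝ} (hs : 0 < s) (hz : z ∈ sphere y s) :
    cw u m y s z = u z := by
  rw [cw, prj_sphere hs hz, ← dist_eq_norm, mem_sphere.1 hz, div_self hs.ne']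
  ring

theorem cw_lip {u m : ℂ → ℝ} {K : Set ℂ} {y z : ℂ} {s : ℝ} (hs : 0 < s) (hm : ArcM u K y s m)
    (hz : z ≠ y) (hK : prj y s z ∉ K) (hu : ContDiffAt ℝ 1 u (prj y s z)) :
    LipAt (cw u m y s) z ∧ DifferentiableAt ℝ (cw u m y s) z ∧
      ‖fderiv ℝ (cw u m y s) z‖ ≤
        |u (prj y s z) - m (prj y s z)| / s + 2 * ‖fderiv ℝ u (prj y s z)‖ := by
  have b0 : 0 < ‖z - y‖ := norm_pos_iff.2 (sub_ne_zero.2 hz)
  have ev : ∀ᶠ w in 𝓝 z, w ≠ y := eventually_ne_nhds hz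
  have t : Tendsto (prj y s) (𝓝 z) (𝓝[sphere y s] prj y s z) :=
    tendsto_nhdsWithin_iff.2 ⟨prj_contAt s hz, ev.mono fun w hw => prj_mem hs hw⟩
  have e : cw u m y s =ᶠ[𝓝 z]
      fun w => m (prj y s z) + ‖w - y‖ / s * (u (prj y s w) - m (prj y s z)) := by
    filter_upwards [t.eventually (hm.lc _ ⟨prj_mem hs hz, hK⟩)] with w hw
    rw [cw, hw]
  have cn : ContDiffAt ℝ 1 (fun w : ℂ => ‖w - y‖ / s) z := (norm_Cone0 hz).div_const s
  have cp := smooth_Cone0 s hz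
  have cg : ContDiffAt ℝ 1 (cw u m y s) z :=
    (contDiffAt_const.add (cn.mul ((hu.comp z cp).sub contDiffAt_const))).congr_of_eventuallyEq e
  refine ⟨cg.exists_lipschitzOnWith, cg.differentiableAt one_ne_zero, ?_⟩
  have hN := (cn.differentiableAt one_ne_zero).hasFDerivAt
  have hP := (cp.differentiableAt one_ne_zero).hasFDerivAt
  have hU := (hu.differentiableAt one_ne_zero).hasFDerivAt
  have n1 : ‖fderiv ℝ (fun w : ℂ => ‖w - y‖ / s) z‖ ≤ 1 / s :=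
    norm_fderiv_le_of_lip' ℝ (by positivity) (Eventually.of_forall fun w => by
      have h1 := abs_norm_sub_norm_le (w - y) (z - y)
      rw [sub_sub_sub_cancel_right] at h1
      rw [← sub_div, Real.norm_eq_abs, abs_div, abs_of_pos hs, one_div_mul_eq_div]
      exact div_le_div_of_nonneg_right h1 hs.le)
  have n2 : ‖fderiv ℝ (prj y s) z‖ ≤ 2 * s / ‖z - y‖ :=
    norm_fderiv_le_of_lip' ℝ (by positivity) (ev.mono fun w hw => lip_Cone0 hs hz hw)
  have hg := ((hN.mul ((hU.comp z hP).sub_const (m (prj y s z)))).const_add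
    (m (prj y s z))).congr_of_eventuallyEq e
  rw [hg.fderiv]
  refine (norm_add_le _ _).trans ?_
  rw [norm_smul, norm_smul, Real.norm_eq_abs, Real.norm_eq_abs, abs_of_pos (div_pos b0 hs)]
  have n3 := mul_le_mul_of_nonneg_left (((fderiv ℝ u (prj y s z)).opNorm_comp_le _).trans
    (mul_le_mul_of_nonneg_left n2 (norm_nonneg _))) (div_pos b0 hs).le
  have n4 := mul_le_mul_of_nonneg_left n1 (abs_nonneg (u (prj y s z) - m (prj y s z)))
  have n5 : ‖z - y‖ / s * (‖fderiv ℝ u (prj y s z)‖ * (2 * s / ‖z - y‖)) =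
      2 * ‖fderiv ℝ u (prj y s z)‖ := by
    field_simp
  rw [n5] at n3
  rw [mul_one_div] at n4
  exact (add_le_add n3 n4).trans_eq (add_comm _ _)

theorem cw_sq {u m : ℂ → ℝ} {K : Set ℂ} {y z : ℂ} {s : ℝ} (hs : 0 < s) (hm : ArcM u K y s m)
    (hz : z ≠ y) (hK : prj y s z ∉ K) (hu : ContDiffAt ℝ 1 u (prj y s z)) :
    ‖fderiv ℝ (cw u m y s) z‖ₑ ^ 2 ≤ cF u K y s z := by
  have h1 := (cw_lip hs hm hz hK hu).2.2
  have h2 := hm.osc _ ⟨prj_mem hs hz, hK⟩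
  have h3 : ‖fderiv ℝ (cw u m y s) z‖ ^ 2 ≤
      2 / s ^ 2 * (u (prj y s z) - m (prj y s z)) ^ 2 + 8 * ‖fderiv ℝ u (prj y s z)‖ ^ 2 := by
    have a1 := pow_le_pow_left₀ (norm_nonneg _) h1 2
    have a2 : 2 / s ^ 2 * (u (prj y s z) - m (prj y s z)) ^ 2 =
        2 * (|u (prj y s z) - m (prj y s z)| / s) ^ 2 := by
      rw [div_pow, sq_abs]
      ring
    rw [a2]
    linarith [sq_nonneg (|u (prj y s z) - m (prj y s z)| / s - 2 * ‖fderiv ℝ u (prj y s z)‖)]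
  have h4 : 4 * Real.pi / s = 2 / s ^ 2 * (2 * Real.pi * s) := by
    field_simp
    ring
  have k0 : 0 ≤ 2 / s ^ 2 := by positivity
  rw [cF, indicator_of_mem (show prj y s z ∈ Kᶜ from hK), ← ofReal_norm,
    ← ofReal_norm, ← ENNReal.ofReal_pow (norm_nonneg _),
    ← ENNReal.ofReal_pow (norm_nonneg _), h4, ENNReal.ofReal_mul k0, mul_assoc]
  refine (ENNReal.ofReal_le_ofReal h3).trans (ENNReal.ofReal_add_le.trans (add_le_add ?_ ?_))
  · rw [ENNReal.ofReal_mul k0]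
    exact mul_le_mul_right h2 _
  · rw [ENNReal.ofReal_mul (by norm_num), ENNReal.ofReal_ofNat]

end Vale.Agent.P128
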