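import Vale.Agent.P128.TC.Chg
import Vale.Agent.P128.TC.Cone0

/-! P128 TC/ConeC. Helper lemma names end with _ConeC.
starS_closed: finite union of compact segments (isCompact_segment or segment_eq_image), starS_sub: convexity of the closed ball.
starS_len: measure_union_le, measure_biUnion_finset_le, len_segment, a point has zero length (Measure.nullSingletonClass_hausdorff),
ENNReal.ofReal_sum_of_nonneg.
cone_comp: the set equals (K \ ball y s) ∪ starS O P because K ∩ sphere = P ⊆ starS, so it is closed. lip: locLip_glue with U = Ω \ L,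
f z = cw u m y s (Φ z) (at z in U ∩ closedBall: PInv.off, cw_lip with smooth_of_holo on Ω \ K, LipAt.comp_lip), g = u (AM0.locLip, mono),
f = g on the circle by PInv.sphere and cw_sphere. sep: c' z = if z ∈ closedBall y s then c (prj y s (Φ z)) else c z; at z in the closed ball off L
the map w ↦ prj y s (Φ w) is continuous at z with value p in Ω \ K, so c (prj y s (Φ w)) = c p near z; if z is on the circle p = z. -/

namespace Vale.Agent.P128

open MeasureTheory Set Metric Filter Topology
open scoped ENNReal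

theorem starS_closed (O : ℂ) (P : Finset ℂ) : IsClosed (starS O P) := by
  refine isClosed_singleton.union (isClosed_biUnion_finset fun p _ => ?_)
  rw [segment_eq_image]
  exact (isCompact_Icc.image (by fun_prop)).isClosed

theorem starS_sub {y O : ℂ} {s : ℝ} (hO : O ∈ closedBall y s) {P : Finset ℂ}
    (hP : ∀ p ∈ P, p ∈ closedBall y s) : starS O P ⊆ closedBall y s := by
  refine union_subset (singleton_subset_iff.2 hO) (iUnion₂_subset fun p hp => ?_)
  exact (convex_closedBall y s).segment_subset hO (hP p hp)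

theorem starS_len (O : ℂ) (P : Finset ℂ) :
    μH[1] (starS O P) ≤ ENNReal.ofReal (∑ p ∈ P, dist p O) := by
  have : NullSingletonClass (μH[1] : Measure ℂ) := Measure.nullSingletonClass_hausdorff ℂ one_pos
  refine (measure_union_le _ _).trans ?_
  rw [measure_singleton, zero_add, ENNReal.ofReal_sum_of_nonneg fun p _ => dist_nonneg]
  refine (measure_biUnion_finset_le _ _).trans (Finset.sum_le_sum fun p _ => ?_)
  rw [len_segment, dist_comm]

theorem cone_comp {Ω : Set ℂ} {ε : ℝ} {wk : Prop} {u : ℂ → ℝ} {K : Set ℂ} (h : AM0 Ω ε wk u K)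
    {y : ℂ} {s : ℝ} (hs : 0 < s) (hB : closedBall y s ⊆ Ω) {P : Finset ℂ}
    (hP : (P : Set ℂ) = K ∩ sphere y s) {O : ℂ} (hO : O ∈ closedBall y (s / 2))
    {m : ℂ → ℝ} (hm : ArcM u K y s m) {Φ : ℂ → ℂ} (hΦ : PInv y O s Φ) :
    Comp Ω wk u K y s (coneW u m y s Φ) ((K \ closedBall y s) ∪ starS O P) := by
  classical
  have hPK : ∀ p, p ∈ P ↔ p ∈ K ∩ sphere y s := fun p => by rw [← hP, Finset.mem_coe]
  have hS : starS O P ⊆ closedBall y s :=
    starS_sub (closedBall_subset_closedBall (by linarith) hO) fun p hp =>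
      sphere_subset_closedBall ((hPK p).1 hp).2
  have hsph : ∀ z, z ∈ closedBall y s → z ∉ ball y s → z ∈ sphere y s := fun z h1 h2 =>
    le_antisymm h1 (not_lt.1 h2)
  have hLK : ∀ z, z ∈ K → z ∉ ball y s → z ∈ (K \ closedBall y s) ∪ starS O P := fun z hz h1 => by
    by_cases h2 : z ∈ closedBall y s
    · exact Or.inr (Or.inr (mem_iUnion₂.2 ⟨z, (hPK z).2 ⟨hz, hsph z h2 h1⟩,
        right_mem_segment ℝ O z⟩))
    · exact Or.inl ⟨hz, h2⟩
  have hL : IsClosed ((K \ closedBall y s) ∪ starS O P) := by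
    have e : (K \ closedBall y s) ∪ starS O P = (K \ ball y s) ∪ starS O P := by
      refine Subset.antisymm (union_subset_union_left _ ?_) (union_subset ?_ subset_union_right)
      · exact fun z hz => ⟨hz.1, fun h1 => hz.2 (ball_subset_closedBall h1)⟩
      · exact fun z hz => hLK z hz.1 hz.2
    rw [e]
    exact (h.closed.sdiff isOpen_ball).union (starS_closed O P)
  have hout : ∀ z ∈ Ω \ ((K \ closedBall y s) ∪ starS O P), z ∉ ball y s → z ∈ Ω \ K :=
    fun z hz h1 => ⟨hz.1, fun h2 => hz.2 (hLK z h2 h1)⟩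
  have hin : ∀ z ∈ Ω \ ((K \ closedBall y s) ∪ starS O P), z ∈ closedBall y s →
      Φ z ≠ y ∧ prj y s (Φ z) ∈ Ω \ K := fun z hz h1 => by
    obtain ⟨h2, h3⟩ := hΦ.off hs hO hP h1 fun h4 => hz.2 (Or.inr h4)
    exact ⟨h2, hB (sphere_subset_closedBall h3.1), h3.2⟩
  have hU : IsOpen (Ω \ K) := h.isOpen.sdiff h.closed
  have hfg : ∀ z ∈ sphere y s, cw u m y s (Φ z) = u z := fun z hz => by
    rw [hΦ.sphere hs hz, cw_sphere u m hs hz]
  refine ⟨hL, ?_, fun z _ hz => if_neg hz, ?_, fun _ c hc => ?_⟩
  · refine Subset.antisymm (fun z hz => ?_) fun z hz => ⟨Or.inl hz, hz.2⟩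
    exact hz.1.resolve_right fun h1 => hz.2 (hS h1)
  · refine locLip_glue (h.isOpen.sdiff hL) (y := y) (s := s) (f := fun z => cw u m y s (Φ z))
      (g := u) (fun z hz => ?_) (h.locLip.mono fun z hz => hout z hz.1 hz.2)
      (fun z hz => hfg z hz.2) (fun z hz => if_pos hz.2) fun z hz => ?_
    · obtain ⟨h1, h2⟩ := hin z hz.1 hz.2
      have h3 : ContDiffAt ℝ 1 u (prj y s (Φ z)) :=
        ((smooth_of_holo hU h.diff h.holo).1.contDiffAt (hU.mem_nhds h2)).of_le
          (by exact_mod_cast le_top)
      obtain ⟨C, t, ht, hl⟩ := (cw_lip hs hm h1 h2.2 h3).1.comp_lip hΦ.lip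
      exact ⟨C, t, mem_nhdsWithin_of_mem_nhds ht, hl⟩
    · unfold coneW
      split_ifs with h1
      · exact hfg z (hsph z h1 hz.2)
      · rfl
  · refine ⟨fun z => if z ∈ closedBall y s then c (prj y s (Φ z)) else c z, fun z hz => ?_,
      fun z _ hz => if_neg hz⟩
    by_cases h1 : z ∈ closedBall y s
    · obtain ⟨h2, h3⟩ := hin z hz h1
      have h4 : ContinuousAt (fun w => prj y s (Φ w)) z :=
        (prj_contAt s h2).comp hΦ.lip.continuous.continuousAt
      have h5 := h4.eventually (hc _ h3)
      by_cases h6 : z ∈ ball y s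
      · filter_upwards [h5, isOpen_ball.mem_nhds h6] with w h7 h8
        simp only [if_pos h1, if_pos (ball_subset_closedBall h8), h7]
      · have h7 := hsph z h1 h6
        filter_upwards [h5, hc z (hout z hz h6)] with w h8 h9
        simp only [if_pos h1]
        split_ifs
        · exact h8
        · rw [h9, hΦ.sphere hs h7, prj_sphere hs h7]
    · filter_upwards [isClosed_closedBall.isOpen_compl.mem_nhds h1,
        hc z (hout z hz fun h2 => h1 (ball_subset_closedBall h2))] with w h2 h3
      simp only [if_neg h1, if_neg (show w ∉ closedBall y s from h2), h3]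

end Vale.Agent.P128
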