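import Vale.Agent.P128.TB.Main

/-! P128 TC/Defs. Helper lemma names end with _Defs.
Definitions for the competitors (frozen). -/

namespace Vale.Agent.P128

open MeasureTheory Set Metric Filter Topology
open scoped ENNReal

noncomputable section

/-- Radial projection from `y` to the circle. -/
def prj (y : ℂ) (s : ℝ) (z : ℂ) : ℂ := y + ((s / ‖z - y‖ : ℝ) : ℂ) * (z - y)

/-- The map that moves the centre `y` to `O` and fixes the circle. -/
def Psi (y O : ℂ) (s : ℝ) (z : ℂ) : ℂ := z + ((1 - ‖z - y‖ / s : ℝ) : ℂ) * (O - y)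

/-- `Φ` is the inverse of `Psi`. -/
structure PInv (y O : ℂ) (s : ℝ) (Φ : ℂ → ℂ) : Prop where
  lip : LipschitzWith 2 Φ
  left : ∀ z, Φ (Psi y O s z) = z
  right : ∀ z, Psi y O s (Φ z) = z

/-- The centred cone extension. -/
def cw (u m : ℂ → ℝ) (y : ℂ) (s : ℝ) (z : ℂ) : ℝ :=
  m (prj y s z) + ‖z - y‖ / s * (u (prj y s z) - m (prj y s z))

/-- Majorant of the squared gradient of the cone extension. -/
def cF (u : ℂ → ℝ) (K : Set ℂ) (y : ℂ) (s : ℝ) (z : ℂ) : ℝ≥0∞ :=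
  Kᶜ.indicator (fun p => ENNReal.ofReal (4 * Real.pi / s) * Dp u K y s + 8 * ‖fderiv ℝ u p‖ₑ ^ 2)
    (prj y s z)

/-- `m` is constant on each arc of the circle off `K` and close to `u`. -/
structure ArcM (u : ℂ → ℝ) (K : Set ℂ) (y : ℂ) (s : ℝ) (m : ℂ → ℝ) : Prop where
  lc : ∀ p ∈ sphere y s \ K, ∀ᶠ q in 𝓝[sphere y s] p, m q = m p
  osc : ∀ p ∈ sphere y s \ K,
    ENNReal.ofReal ((u p - m p) ^ 2) ≤ ENNReal.ofReal (2 * Real.pi * s) * Dp u K y s

/-- The segments from `O` to the points of `P`. -/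
def starS (O : ℂ) (P : Finset ℂ) : Set ℂ := {O} ∪ ⋃ p ∈ P, segment ℝ O p

open Classical in
/-- The cone competitor. -/
def coneW (u m : ℂ → ℝ) (y : ℂ) (s : ℝ) (Φ : ℂ → ℂ) (z : ℂ) : ℝ :=
  if z ∈ closedBall y s then cw u m y s (Φ z) else u z

def discs (Z : Finset ℂ) (ρ : ℝ) : Set ℂ := ⋃ p ∈ Z, ball p ρ

def circs (Z : Finset ℂ) (ρ : ℝ) : Set ℂ := ⋃ p ∈ Z, sphere p ρ

/-- The glued set. -/
def gL (K L : Set ℂ) (y : ℂ) (s ρ : ℝ) (Z : Finset ℂ) : Set ℂ :=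
  ((L ∩ closedBall y s) \ discs Z ρ) ∪ circs Z ρ ∪ (K \ (ball y s ∪ discs Z ρ))

/-- The radial jramp: zero up to radius `s - δ`, one at radius `s`. -/
def gpsi (y : ℂ) (s δ : ℝ) (z : ℂ) : ℝ := max 0 ((dist z y - (s - δ)) / δ)

open Classical in
/-- The glued function. -/
def gW (u w : ℂ → ℝ) (y : ℂ) (s δ ρ : ℝ) (Z : Finset ℂ) (z : ℂ) : ℝ :=
  if z ∈ discs Z ρ then 0
  else if z ∈ closedBall y s then w z + gpsi y s δ z * (u z - w z) else u z

/-- Coordinate normal to `e`. -/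
def nco (x e z : ℂ) : ℝ := ((z - x) * (starRingEnd ℂ) e).im

/-- Ramp from `a` to `b` across the strip of half width `h`. -/
def jramp (x e : ℂ) (h a b : ℝ) (z : ℂ) : ℝ :=
  a + (b - a) * max 0 (min 1 ((nco x e z + h) / (2 * h)))

end

end Vale.Agent.P128
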