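import Vale.Agent.P128.TC.GSet

/-! P128 TC/GEn. Helper lemma names end with _GEn.
gW_pt: near z the function is w + (dist · y - (s - δ)) / δ * (u - w) (gL_off, s - δ < dist z y < s), the radial factor ψ is differentiable at z ≠ y with
0 ≤ ψ z ≤ 1 and ‖fderiv ψ z‖ ≤ 1 / δ (norm_fderiv_le_of_lipschitz or of_lip'); product rule; then (a + b)^2 ≤ (1 + η) a^2 + (1 + 1/η) b^2 and
(b + c)^2 ≤ 2 b^2 + 2 c^2. collar_vol: the collar lies in closedBall y s \ ball y (s - δ); Complex.volume_closedBall, Complex.volume_ball, measure_diff,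
π (s^2 - (s - δ)^2) ≤ 7 s δ. glue_in: for almost every z in closedBall y s \ gL (off the two circles, Measure.addHaar_sphere; w differentiable at almost every
point of the open set ball y s \ L by locLip_ae_diff) the integrand is at most ofReal (1 + η) * indicator (closedBall y s \ L) ‖fderiv w‖ₑ^2 +
ofReal (2 (1 + 1/η)) * indicator collar (‖fderiv (u - w)‖ₑ^2 + ofReal (σ^2/δ^2)): it is 0 in discs, equals ‖fderiv w‖ₑ^2 for dist z y < s - δ, gW_pt else.
The collar is closed, so measurable; measurable_fderiv, lintegral_add_left, lintegral_const_mul, lintegral_indicator. -/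

namespace Vale.Agent.P128

open MeasureTheory Set Metric Filter Topology
open scoped ENNReal

theorem sq_GEn {N A B c η : ℝ} (hη : 0 < η) (hN : 0 ≤ N) (h : N ≤ A + (B + c)) :
    N ^ 2 ≤ (1 + η) * A ^ 2 + 2 * (1 + 1 / η) * (B ^ 2 + c ^ 2) := by
  have h1 : N ^ 2 ≤ (A + (B + c)) ^ 2 := pow_le_pow_left₀ hN h 2
  have h2 : (1 + η) * A ^ 2 + (1 + 1 / η) * (B + c) ^ 2 - (A + (B + c)) ^ 2 =
      (η * A - (B + c)) ^ 2 / η := by
    field_simp
    ring
  have h3 : 0 ≤ (η * A - (B + c)) ^ 2 / η := by positivity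
  have h4 : (1 + 1 / η) * (B + c) ^ 2 ≤ (1 + 1 / η) * (2 * (B ^ 2 + c ^ 2)) :=
    mul_le_mul_of_nonneg_left (by nlinarith [sq_nonneg (B - c)]) (by positivity)
  linarith

theorem nd_GEn {Z : Finset ℂ} {ρ : ℝ} {q : ℂ} (h : ∀ p ∈ Z, ρ < dist q p) : q ∉ discs Z ρ := by
  simp only [discs, mem_iUnion, mem_ball, not_exists, not_lt]
  exact fun p hp => (h p hp).le

theorem gW_pt {K L : Set ℂ} {u w : ℂ → ℝ} {y : ℂ} {s δ ρ η σ : ℝ} (hδ : 0 < δ) (hδs : δ < s)
    (hη : 0 < η) {Z : Finset ℂ} {z : ℂ} (hz : z ∉ gL K L y s ρ Z) (hd : z ∉ discs Z ρ)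
    (h1 : s - δ < dist z y) (h2 : dist z y < s) (hu : DifferentiableAt ℝ u z)
    (hw : DifferentiableAt ℝ w z) (hσ : |u z - w z| ≤ σ) :
    ‖fderiv ℝ (gW u w y s δ ρ Z) z‖ ^ 2 ≤ (1 + η) * ‖fderiv ℝ w z‖ ^ 2 +
      2 * (1 + 1 / η) * (‖fderiv ℝ (fun z => u z - w z) z‖ ^ 2 + σ ^ 2 / δ ^ 2) := by
  have hc : Continuous fun q : ℂ => dist q y := by fun_prop
  have e : gW u w y s δ ρ Z =ᶠ[𝓝 z] fun q => w q + (dist q y - (s - δ)) / δ * (u q - w q) := by
    filter_upwards [(gL_off hz hd).1, hc.continuousAt.eventually (lt_mem_nhds h1),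
      hc.continuousAt.eventually (gt_mem_nhds h2)] with q a b c
    rw [gW, if_neg (nd_GEn a), if_pos (mem_closedBall.2 c.le), gpsi,
      max_eq_right (div_nonneg (by linarith) hδ.le)]
  have hne : z ≠ y := dist_pos.1 (by linarith)
  have hψ : DifferentiableAt ℝ (fun q : ℂ => (dist q y - (s - δ)) / δ) z :=
    ((DifferentiableAt.dist ℂ differentiableAt_id (differentiableAt_const y) hne).sub_const
      _).mul_const δ⁻¹
  have hψ' : ‖fderiv ℝ (fun q : ℂ => (dist q y - (s - δ)) / δ) z‖ ≤ 1 / δ := by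
    refine norm_fderiv_le_of_lip' ℝ (by positivity) (Eventually.of_forall fun q => ?_)
    rw [← sub_div, sub_sub_sub_cancel_right, norm_div, Real.norm_of_nonneg hδ.le, ← dist_eq_norm q z,
      one_div_mul_eq_div]
    exact div_le_div_of_nonneg_right (abs_dist_sub_le q z y) hδ.le
  have hv : DifferentiableAt ℝ (fun q => u q - w q) z := hu.sub hw
  have hf := hw.hasFDerivAt.add (hψ.hasFDerivAt.mul hv.hasFDerivAt)
  rw [e.fderiv_eq, ← div_pow, show fderiv ℝ (fun q => w q + (dist q y - (s - δ)) / δ * (u q - w q)) z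
    = _ from hf.fderiv]
  refine sq_GEn hη (norm_nonneg _) ((norm_add_le _ _).trans (add_le_add le_rfl
    ((norm_add_le _ _).trans (add_le_add ?_ ?_))))
  · rw [norm_smul, Real.norm_of_nonneg (div_nonneg (by linarith) hδ.le)]
    exact mul_le_of_le_one_left (norm_nonneg _) ((div_le_one hδ).2 (by linarith))
  · rw [norm_smul, div_eq_mul_one_div]
    exact mul_le_mul hσ hψ' (norm_nonneg _) ((abs_nonneg _).trans hσ)

theorem collar_vol (y : ℂ) {s δ : ℝ} (hδ : 0 < δ) (hδs : δ < s) (ρ : ℝ) (Z : Finset ℂ) :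
    MeasurableSet (collar y s δ ρ Z) ∧ volume (collar y s δ ρ Z) ≤ ENNReal.ofReal (7 * s * δ) := by
  constructor
  · have e : collar y s δ ρ Z = (closedBall y s \ ball y (s - δ)) \ discs Z ρ := by
      ext z
      simp only [collar, discs, mem_ofPred_eq, Set.mem_sdiff, mem_closedBall, mem_ball, not_lt,
        mem_iUnion, not_exists]
      tauto
    rw [e]
    exact (measurableSet_closedBall.diff measurableSet_ball).diff (discs_open Z ρ).measurableSet
  · have h : collar y s δ ρ Z ⊆ closedBall y s \ ball y (s - δ) := fun z hz =>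
      ⟨hz.2.1, fun h => (mem_ball.1 h).not_ge hz.1⟩
    refine (measure_mono h).trans ?_
    rw [measure_sdiff (ball_subset_closedBall.trans (closedBall_subset_closedBall (by linarith)))
      measurableSet_ball.nullMeasurableSet measure_ball_lt_top.ne, tsub_le_iff_right,
      Complex.volume_ball, Complex.volume_closedBall, ← ENNReal.ofReal_coe_nnreal,
      NNReal.coe_real_pi, ← ENNReal.ofReal_pow (by linarith), ← ENNReal.ofReal_pow (by linarith),
      ← ENNReal.ofReal_mul (by positivity), ← ENNReal.ofReal_mul (by positivity),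
      ← ENNReal.ofReal_add (by have : 0 < s := by linarith
                               positivity) (by positivity)]
    refine ENNReal.ofReal_le_ofReal ?_
    have h1 := Real.pi_lt_d2
    have h2 := Real.pi_pos
    have h3 : 0 < s * δ := mul_pos (by linarith) hδ
    nlinarith [mul_pos h2 (mul_pos hδ hδ)]

theorem en_GEn {E : Type} [NormedAddCommGroup E] (x : E) :
    ‖x‖ₑ ^ 2 = ENNReal.ofReal (‖x‖ ^ 2) := by
  rw [ENNReal.ofReal_pow (norm_nonneg x), ofReal_norm]

theorem pt_GEn {K L : Set ℂ} {u w : ℂ → ℝ} {y : ℂ}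
    {s δ ρ η σ : ℝ} (hδ : 0 < δ) (hδs : δ < s) (hη : 0 < η) {Z : Finset ℂ}
    (hu : ∀ z ∈ collar y s δ ρ Z, DifferentiableAt ℝ u z)
    (hσ : ∀ z ∈ collar y s δ ρ Z, |u z - w z| ≤ σ) {z : ℂ}
    (hz : z ∈ closedBall y s \ gL K L y s ρ Z) (h1 : z ∉ sphere y s) (h2 : z ∉ sphere y (s - δ))
    (hw : z ∈ ball y s \ L → DifferentiableAt ℝ w z) :
    ‖fderiv ℝ (gW u w y s δ ρ Z) z‖ₑ ^ 2 ≤
      ENNReal.ofReal (1 + η) * (closedBall y s \ L).indicator (fun z => ‖fderiv ℝ w z‖ₑ ^ 2) z +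
      ENNReal.ofReal (2 * (1 + 1 / η)) * (collar y s δ ρ Z).indicator
        (fun z => ‖fderiv ℝ (fun z => u z - w z) z‖ₑ ^ 2 + ENNReal.ofReal (σ ^ 2 / δ ^ 2)) z := by
  by_cases hd : z ∈ discs Z ρ
  · have e : gW u w y s δ ρ Z =ᶠ[𝓝 z] fun _ => 0 := by
      filter_upwards [(discs_open Z ρ).mem_nhds hd] with q hq
      rw [gW, if_pos hq]
    rw [e.fderiv_eq, en_GEn, fderiv_fun_const, Pi.zero_apply, norm_zero, zero_pow two_ne_zero,
      ENNReal.ofReal_zero]
    exact zero_le
  obtain ⟨a, b, -⟩ := gL_off hz.2 hd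
  have hs : dist z y < s := (mem_closedBall.1 hz.1).lt_of_ne h1
  rw [indicator_of_mem (show z ∈ closedBall y s \ L from ⟨hz.1, b hz.1⟩)]
  rcases lt_or_gt_of_ne (show dist z y ≠ s - δ from h2) with h | h
  · have e : gW u w y s δ ρ Z =ᶠ[𝓝 z] w := by
      filter_upwards [a, isOpen_ball.mem_nhds (mem_ball.2 h)] with q hq hq'
      rw [mem_ball] at hq'
      rw [gW, if_neg (nd_GEn hq), if_pos (mem_closedBall.2 (by linarith)), gpsi,
        max_eq_left (div_nonpos_of_nonpos_of_nonneg (by linarith) hδ.le), zero_mul, add_zero]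
    rw [e.fderiv_eq]
    exact le_add_right (le_mul_of_one_le_left zero_le (ENNReal.one_le_ofReal.2 (by linarith)))
  · have hc : z ∈ collar y s δ ρ Z := ⟨h.le, hs.le, fun p hp => (a.self_of_nhds p hp).le⟩
    rw [indicator_of_mem hc, en_GEn, en_GEn, en_GEn,
      ← ENNReal.ofReal_add (by positivity) (by positivity), ← ENNReal.ofReal_mul (by positivity),
      ← ENNReal.ofReal_mul (by positivity), ← ENNReal.ofReal_add (by positivity) (by positivity)]
    exact ENNReal.ofReal_le_ofReal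
      (gW_pt hδ hδs hη hz.2 hd h hs (hu z hc) (hw ⟨hs, b hz.1⟩) (hσ z hc))

theorem glue_in {K L : Set ℂ} (hK : IsClosed K) (hL : IsClosed L) {u w : ℂ → ℝ} {y : ℂ}
    {s δ ρ η σ : ℝ} (hδ : 0 < δ) (hδs : δ < s) (hη : 0 < η) {Z : Finset ℂ}
    (hu : ∀ z ∈ collar y s δ ρ Z, DifferentiableAt ℝ u z)
    (hw : LocallyLipschitzOn (closedBall y s \ L) w)
    (hσ : ∀ z ∈ collar y s δ ρ Z, |u z - w z| ≤ σ) :
    Dir (gW u w y s δ ρ Z) (closedBall y s \ gL K L y s ρ Z) ≤
      ENNReal.ofReal (1 + η) * Dir w (closedBall y s \ L) + ENNReal.ofReal (2 * (1 + 1 / η)) *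
        (Dir (fun z => u z - w z) (collar y s δ ρ Z) + ENNReal.ofReal (7 * s * σ ^ 2 / δ)) := by
  obtain ⟨hm, hv⟩ := collar_vol y hδ hδs ρ Z
  have hU : IsOpen (ball y s \ L) := isOpen_ball.sdiff hL
  have h1 := (ae_restrict_iff' hU.measurableSet).1
    (locLip_ae_diff hU (hw.mono (sdiff_subset_sdiff_left ball_subset_closedBall)))
  have h2 := measure_eq_zero_iff_ae_notMem.1 (Measure.addHaar_sphere volume y s)
  have h3 := measure_eq_zero_iff_ae_notMem.1 (Measure.addHaar_sphere volume y (s - δ))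
  have hS : MeasurableSet (closedBall y s \ gL K L y s ρ Z) :=
    measurableSet_closedBall.diff (gL_closed hK hL y s ρ Z).measurableSet
  have hS' : MeasurableSet (closedBall y s \ L) := measurableSet_closedBall.diff hL.measurableSet
  have hf : ∀ f : ℂ → ℝ, Measurable fun z => ‖fderiv ℝ f z‖ₑ ^ 2 := fun f =>
    (measurable_fderiv ℝ f).enorm.pow_const 2
  refine (setLIntegral_mono_ae' hS (by
    filter_upwards [h1, h2, h3] with z a b c hz using pt_GEn hδ hδs hη hu hσ hz b c a)).trans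
    ((setLIntegral_le_lintegral _ _).trans ?_)
  rw [lintegral_add_left (((hf w).indicator hS').const_mul _),
    lintegral_const_mul' _ _ ENNReal.ofReal_ne_top, lintegral_const_mul' _ _ ENNReal.ofReal_ne_top,
    lintegral_indicator hS', lintegral_indicator hm, lintegral_add_left (hf _), setLIntegral_const]
  refine add_le_add le_rfl (mul_le_mul_right (add_le_add le_rfl ?_) _)
  refine (mul_le_mul_right hv _).trans ?_
  rw [← ENNReal.ofReal_mul (by positivity)]
  refine ENNReal.ofReal_le_ofReal (le_of_eq ?_)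
  field_simp

end Vale.Agent.P128
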