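import Vale.Agent.P128.TC.GSet

/-! P128 TC/GLip. Helper lemma names end with _GLip.
locLipOn_mul: locallyLipschitzOn_iff_restrict, LocallyLipschitz.prodMk and LocallyLipschitz.comp with (contDiff_mul ..).locallyLipschitz.
glue_lip: locLip_iff on the open set Ω \ gL. In discs the function is 0 near z (lipAt_const, LipAt.congr). Otherwise z lies in the open set
U = (Ω \ gL) ∩ {w | ∀ p ∈ Z, ρ < dist w p}; apply locLip_glue on U with f = w + gpsi * (u - w), g = u (gL_off: U \ ball ⊆ Ω \ K), f = g on the circle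
since gpsi = 1 there. f is locally Lipschitz on T = U ∩ closedBall y s ⊆ closedBall y s \ L: at a point with dist z y < s - δ it agrees with w nearby
(gpsi = 0); at the other points of T, which lie in the collar and so in the open set Ω \ K, use locLipOn_mul on T ∩ (Ω \ K), a relative
neighbourhood (gpsi is Lipschitz: LipschitzWith.max, LipschitzWith.dist_left). -/

namespace Vale.Agent.P128

open MeasureTheory Set Metric Filter Topology
open scoped ENNReal

theorem locLipOn_mul {S : Set ℂ} {f g : ℂ → ℝ} (hf : LocallyLipschitzOn S f)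
    (hg : LocallyLipschitzOn S g) : LocallyLipschitzOn S fun z => f z * g z := by
  rw [locallyLipschitzOn_iff_restrict] at hf hg ⊢
  have h1 : ContDiff ℝ 1 fun p : ℝ × ℝ => p.1 * p.2 := contDiff_fst.mul contDiff_snd
  exact h1.locallyLipschitz.comp (hf.prodMk hg)

theorem add_GLip {S : Set ℂ} {f g : ℂ → ℝ} (hf : LocallyLipschitzOn S f)
    (hg : LocallyLipschitzOn S g) (c : ℝ) : LocallyLipschitzOn S fun z => f z + c * g z := by
  rw [locallyLipschitzOn_iff_restrict] at hf hg ⊢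
  have h1 : ContDiff ℝ 1 fun p : ℝ × ℝ => p.1 + c * p.2 :=
    contDiff_fst.add (contDiff_const.mul contDiff_snd)
  exact h1.locallyLipschitz.comp (hf.prodMk hg)

theorem gpsi_GLip (y : ℂ) (s δ : ℝ) : LocallyLipschitz (gpsi y s δ) := by
  have h1 : ContDiff ℝ 1 fun r : ℝ => (r - (s - δ)) / δ := by fun_prop
  have h2 : LocallyLipschitz fun z : ℂ => (dist z y - (s - δ)) / δ :=
    h1.locallyLipschitz.comp (LipschitzWith.dist_left y).locallyLipschitz
  exact h2.const_max 0

theorem inner_GLip {Ω K L T : Set ℂ} (hΩ : IsOpen Ω) (hK : IsClosed K)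
    {u w : ℂ → ℝ} (hu : LocallyLipschitzOn (Ω \ K) u) {y : ℂ} {s δ : ℝ} (hδ : 0 < δ)
    (hw : LocallyLipschitzOn (closedBall y s \ L) w) (h1 : T ⊆ closedBall y s \ L)
    (h2 : ∀ z ∈ T, s - δ ≤ dist z y → z ∈ Ω \ K) :
    LocallyLipschitzOn T fun z => w z + gpsi y s δ z * (u z - w z) := by
  intro z hz
  rcases lt_or_ge (dist z y) (s - δ) with h | h
  · obtain ⟨C, t, ht, hl⟩ := hw.mono h1 hz
    refine ⟨C, t ∩ ball y (s - δ),
      inter_mem ht (mem_nhdsWithin_of_mem_nhds (isOpen_ball.mem_nhds h)), fun a ha b hb => ?_⟩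
    have e : ∀ x ∈ ball y (s - δ), gpsi y s δ x = 0 := fun x hx =>
      max_eq_left (div_nonpos_of_nonpos_of_nonneg (sub_nonpos.2 (le_of_lt hx)) hδ.le)
    simp only [e a ha.2, e b hb.2, zero_mul, add_zero]
    exact hl ha.1 hb.1
  · have a1 : LocallyLipschitzOn (T ∩ (Ω \ K)) w := hw.mono fun x hx => h1 hx.1
    have a2 : LocallyLipschitzOn (T ∩ (Ω \ K)) u := hu.mono inter_subset_right
    have a3 := add_GLip a1 (locLipOn_mul (gpsi_GLip y s δ).locallyLipschitzOn
      (add_GLip a2 a1 (-1))) 1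
    obtain ⟨C, t, ht, hl⟩ := a3 ⟨hz, h2 z hz h⟩
    rw [nhdsWithin_inter_of_mem'
      (mem_nhdsWithin_of_mem_nhds ((hΩ.sdiff hK).mem_nhds (h2 z hz h)))] at ht
    refine ⟨C, t, ht, ?_⟩
    simpa only [one_mul, neg_mul, ← sub_eq_add_neg] using hl

theorem glue_lip {Ω K L : Set ℂ} (hΩ : IsOpen Ω) (hK : IsClosed K) (hL : IsClosed L)
    {u w : ℂ → ℝ} (hu : LocallyLipschitzOn (Ω \ K) u) {y : ℂ} {s δ ρ : ℝ} (hδ : 0 < δ)
    {Z : Finset ℂ} (hw : LocallyLipschitzOn (closedBall y s \ L) w)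
    (hKc : Disjoint (collar y s δ ρ Z) K) :
    LocallyLipschitzOn (Ω \ gL K L y s ρ Z) (gW u w y s δ ρ Z) := by
  have hO : IsOpen (Ω \ gL K L y s ρ Z) := hΩ.sdiff (gL_closed hK hL y s ρ Z)
  have hd : ∀ x, x ∉ discs Z ρ ↔ ∀ p ∈ Z, ρ ≤ dist x p := fun x => by simp [discs]
  have hU : IsOpen ((Ω \ gL K L y s ρ Z) \ discs Z ρ) := by
    refine isOpen_iff_mem_nhds.2 fun z hz => ?_
    filter_upwards [hO.mem_nhds hz.1, (gL_off hz.1.2 hz.2).1] with x h1 h2
    exact ⟨h1, (hd x).2 fun p hp => (h2 p hp).le⟩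
  have hG : LocallyLipschitzOn ((Ω \ gL K L y s ρ Z) \ discs Z ρ) (gW u w y s δ ρ Z) := by
    refine locLip_glue hU (y := y) (s := s) (f := fun z => w z + gpsi y s δ z * (u z - w z))
      (g := u) ?_ ?_ ?_ ?_ ?_
    · refine inner_GLip hΩ hK hu hδ hw
        (fun z hz => ⟨hz.2, (gL_off hz.1.1.2 hz.1.2).2.1 hz.2⟩) fun z hz h => ⟨hz.1.1.1, ?_⟩
      exact disjoint_left.1 hKc ⟨h, hz.2, (hd z).1 hz.1.2⟩
    · exact hu.mono fun z hz => ⟨hz.1.1.1, (gL_off hz.1.1.2 hz.1.2).2.2 hz.2⟩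
    · intro z hz
      have e : gpsi y s δ z = 1 := by
        rw [gpsi, mem_sphere.1 hz.2, sub_sub_cancel, div_self hδ.ne', max_eq_right zero_le_one]
      simp only [e, one_mul, add_sub_cancel]
    · intro z hz
      rw [gW, if_neg hz.1.2, if_pos hz.2]
    · intro z hz
      rw [gW, if_neg hz.1.2]
      split_ifs with h
      · have e : gpsi y s δ z = 1 := by
          rw [gpsi, le_antisymm (mem_closedBall.1 h) (not_lt.1 hz.2), sub_sub_cancel,
            div_self hδ.ne', max_eq_right zero_le_one]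
        rw [e, one_mul, add_sub_cancel]
      · rfl
  refine (locLip_iff hO).2 fun z hz => ?_
  by_cases h : z ∈ discs Z ρ
  · refine (lipAt_const 0 z).congr ?_
    filter_upwards [(discs_open Z ρ).mem_nhds h] with x hx
    rw [gW, if_pos hx]
  · exact (locLip_iff hU).1 hG z ⟨hz, h⟩

end Vale.Agent.P128
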