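import Vale.Agent.P128.TC.Defs

/-! P128 TC/GSet. Helper lemma names end with _GSet.
Set facts for the glued pair. gL_off: if z is not in discs and not in circs then ρ < dist z p for all p in Z, so near z no point lies in a closed
disc (Filter.eventually_all_finset). glue_sep: take κ₁ κ₂ from the hypothesis and put κ' z = 0 on discs, κ₁ z on ball y s, κ₂ z elsewhere.
For z in Ω off gL: in discs (open) it is 0 near z; in ball y s it is κ₁ near z and z is not in L; for dist z y ≥ s the point is not in K and κ' = κ₂ near z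
(points of ball y s near z lie in the collar); discs ⊆ closedBall y R by the triangle inequality. -/

namespace Vale.Agent.P128

open MeasureTheory Set Metric Filter Topology
open scoped ENNReal

theorem mem_discs_GSet {Z : Finset ℂ} {ρ : ℝ} {z : ℂ} :
    z ∈ discs Z ρ ↔ ∃ p ∈ Z, dist z p < ρ := by
  simp [discs]

theorem mem_circs_GSet {Z : Finset ℂ} {ρ : ℝ} {z : ℂ} :
    z ∈ circs Z ρ ↔ ∃ p ∈ Z, dist z p = ρ := by
  simp only [circs, mem_iUnion, mem_sphere, exists_prop]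

theorem out_GSet {y z : ℂ} {s ρ R : ℝ} (hρ : 0 < ρ) (hR : s + ρ ≤ R) {Z : Finset ℂ}
    (hZ : ∀ p ∈ Z, p ∈ sphere y s) (hz : z ∉ closedBall y R) :
    z ∉ closedBall y s ∧ z ∉ discs Z ρ ∧ z ∉ circs Z ρ := by
  have h0 : R < dist z y := not_le.1 hz
  have h1 : ∀ p ∈ Z, ρ < dist z p := fun p hp => by
    have e1 : dist p y = s := hZ p hp
    have e2 := dist_triangle z p y
    linarith
  refine ⟨fun h => ?_, fun h => ?_, fun h => ?_⟩
  · have : dist z y ≤ s := h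
    linarith
  · obtain ⟨p, hp, h⟩ := mem_discs_GSet.1 h
    exact lt_asymm h (h1 p hp)
  · obtain ⟨p, hp, h⟩ := mem_circs_GSet.1 h
    exact (h1 p hp).ne' h

theorem discs_open (Z : Finset ℂ) (ρ : ℝ) : IsOpen (discs Z ρ) := by
  exact isOpen_biUnion fun _ _ => isOpen_ball

theorem gL_closed {K L : Set ℂ} (hK : IsClosed K) (hL : IsClosed L) (y : ℂ) (s ρ : ℝ)
    (Z : Finset ℂ) : IsClosed (gL K L y s ρ Z) := by
  refine (((hL.inter isClosed_closedBall).sdiff (discs_open Z ρ)).union ?_).union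
    (hK.sdiff (isOpen_ball.union (discs_open Z ρ)))
  exact isClosed_biUnion_finset fun _ _ => isClosed_sphere

theorem circs_len (Z : Finset ℂ) {ρ : ℝ} (hρ : 0 < ρ) :
    μH[1] (circs Z ρ) ≤ ENNReal.ofReal (7 * ρ * Z.card) := by
  refine (measure_biUnion_finset_le Z fun p => sphere p ρ).trans ?_
  have h1 : ∀ p ∈ Z, μH[1] (sphere p ρ) ≤ ENNReal.ofReal (7 * ρ) := fun p _ => by
    refine (len_sphere p hρ.le).trans (ENNReal.ofReal_le_ofReal ?_)
    have := Real.pi_lt_d2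
    nlinarith
  refine (Finset.sum_le_sum h1).trans (le_of_eq ?_)
  rw [Finset.sum_const, nsmul_eq_mul, ENNReal.ofReal_mul (p := 7 * ρ) (by positivity),
    ENNReal.ofReal_natCast, mul_comm]

theorem gL_off {K L : Set ℂ} {y : ℂ} {s ρ : ℝ} {Z : Finset ℂ} {z : ℂ} (hz : z ∉ gL K L y s ρ Z)
    (hd : z ∉ discs Z ρ) :
    (∀ᶠ w in 𝓝 z, ∀ p ∈ Z, ρ < dist w p) ∧ (z ∈ closedBall y s → z ∉ L) ∧
      (z ∉ ball y s → z ∉ K) := by
  refine ⟨(Filter.eventually_all_finset Z).2 fun p hp => ?_, fun h1 h2 => ?_, fun h1 h2 => ?_⟩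
  · have e1 : ρ ≤ dist z p := not_lt.1 fun h => hd (mem_discs_GSet.2 ⟨p, hp, h⟩)
    have e2 : dist z p ≠ ρ := fun h => hz (Or.inl (Or.inr (mem_circs_GSet.2 ⟨p, hp, h⟩)))
    have e3 : ρ < dist z p := lt_of_le_of_ne e1 e2.symm
    exact (continuous_id.dist continuous_const).continuousAt.eventually (lt_mem_nhds e3)
  · exact hz (Or.inl (Or.inl ⟨⟨h2, h1⟩, hd⟩))
  · exact hz (Or.inr ⟨h2, fun h => h.elim h1 hd⟩)

theorem glue_eq {K L : Set ℂ} {y : ℂ} {s δ ρ R : ℝ} (hρ : 0 < ρ) (hR : s + ρ ≤ R) {Z : Finset ℂ}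
    (hZ : ∀ p ∈ Z, p ∈ sphere y s) (u w : ℂ → ℝ) :
    gL K L y s ρ Z \ closedBall y R = K \ closedBall y R ∧
      ∀ z, z ∉ closedBall y R → gW u w y s δ ρ Z z = u z := by
  constructor
  · ext z
    constructor
    · rintro ⟨h1, h2⟩
      obtain ⟨e1, -, e3⟩ := out_GSet hρ hR hZ h2
      rcases h1 with (h1 | h1) | h1
      · exact absurd h1.1.2 e1
      · exact absurd h1 e3
      · exact ⟨h1.1, h2⟩
    · rintro ⟨h1, h2⟩
      obtain ⟨e1, e2, -⟩ := out_GSet hρ hR hZ h2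
      exact ⟨Or.inr ⟨h1, fun h => h.elim (fun h => e1 (ball_subset_closedBall h)) e2⟩, h2⟩
  · intro z hz
    obtain ⟨e1, e2, -⟩ := out_GSet hρ hR hZ hz
    rw [gW, if_neg e2, if_neg e1]

theorem glue_sep {Ω K L : Set ℂ} {y : ℂ} {s δ ρ R : ℝ} (hδ : 0 < δ)
    (hρ : 0 < ρ) (hR : s + ρ ≤ R) {Z : Finset ℂ} (hZ : ∀ p ∈ Z, p ∈ sphere y s)
    (hsep : ∀ κ : ℂ → ℝ, LC (Ω \ K) κ → ∃ κ₁ κ₂ : ℂ → ℝ, LC (ball y s \ L) κ₁ ∧
      LC ((Ω \ K) \ (closedBall y (s - δ) ∪ ⋃ p ∈ Z, closedBall p ρ)) κ₂ ∧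
      (∀ z ∈ collar y s δ ρ Z, κ₁ z = κ₂ z) ∧
      ∀ z ∈ Ω \ K, z ∉ closedBall y R → κ₂ z = κ z) :
    Sep Ω K (gL K L y s ρ Z) (closedBall y R) := by
  classical
  intro κ hκ
  obtain ⟨κ₁, κ₂, h1, h2, h3, h4⟩ := hsep κ hκ
  refine ⟨fun z => if z ∈ discs Z ρ then 0 else if z ∈ ball y s then κ₁ z else κ₂ z,
    fun z hz => ?_, fun z hz hzR => ?_⟩
  · by_cases hd : z ∈ discs Z ρ
    · filter_upwards [(discs_open Z ρ).mem_nhds hd] with w hw
      rw [if_pos hw, if_pos hd]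
    obtain ⟨e1, e2, e3⟩ := gL_off hz.2 hd
    have e4 : ∀ w, (∀ p ∈ Z, ρ < dist w p) → w ∉ discs Z ρ := fun w hw h => by
      obtain ⟨p, hp, h⟩ := mem_discs_GSet.1 h
      exact lt_asymm h (hw p hp)
    by_cases hb : z ∈ ball y s
    · filter_upwards [e1, isOpen_ball.mem_nhds hb, h1 z ⟨hb, e2 (ball_subset_closedBall hb)⟩]
        with w a1 a2 a3
      rw [if_neg (e4 w a1), if_pos a2, if_neg hd, if_pos hb, a3]
    · have f1 : s - δ < dist z y := by
        have : s ≤ dist z y := not_lt.1 hb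
        linarith
      have f2 : z ∈ (Ω \ K) \ (closedBall y (s - δ) ∪ ⋃ p ∈ Z, closedBall p ρ) := by
        refine ⟨⟨hz.1, e3 hb⟩, fun h => h.elim (fun h => not_le.2 f1 h) fun h => ?_⟩
        simp only [mem_iUnion, mem_closedBall, exists_prop] at h
        obtain ⟨p, hp, h⟩ := h
        exact not_le.2 (e1.self_of_nhds p hp) h
      have f3 : ∀ᶠ w in 𝓝 z, s - δ < dist w y :=
        (continuous_id.dist continuous_const).continuousAt.eventually (lt_mem_nhds f1)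
      filter_upwards [e1, f3, h2 z f2] with w a1 a2 a3
      rw [if_neg (e4 w a1), if_neg hd, if_neg hb]
      by_cases hw : w ∈ ball y s
      · rw [if_pos hw, h3 w ⟨a2.le, (mem_ball.1 hw).le, fun p hp => (a1 p hp).le⟩, a3]
      · rw [if_neg hw, a3]
  · obtain ⟨e1, e2, -⟩ := out_GSet hρ hR hZ hzR
    dsimp only
    rw [if_neg e2, if_neg fun h => e1 (ball_subset_closedBall h)]
    exact h4 z hz hzR

end Vale.Agent.P128
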