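import Vale.Agent.P128.TC.GLip
import Vale.Agent.P128.TC.GEn

/-! P128 TC/Glue. Helper lemma names end with _Glue.
Assembly of the glued competitor. -/

namespace Vale.Agent.P128

open MeasureTheory Set Metric Filter Topology
open scoped ENNReal

theorem split_Glue (u : ℂ → ℝ) {K S T : Set ℂ} (hK : IsClosed K) (hT : MeasurableSet T)
    (hd : Disjoint S T) : En u K (S ∪ T) = En u K S + En u K T := by
  unfold En Dir
  rw [union_sdiff_distrib, inter_union_distrib_left,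
    lintegral_union (hT.diff hK.measurableSet) (hd.mono sdiff_subset sdiff_subset),
    measure_union (hd.mono inter_subset_right inter_subset_right) (hK.measurableSet.inter hT)]
  ring

theorem outer_Glue {K L : Set ℂ} (hK : IsClosed K) (hL : IsClosed L) (u w : ℂ → ℝ) (y : ℂ)
    (s δ ρ : ℝ) (Z : Finset ℂ) {A : Set ℂ} (hA : MeasurableSet A)
    (hAs : ∀ z ∈ A, z ∉ closedBall y s) :
    Dir (gW u w y s δ ρ Z) (A \ gL K L y s ρ Z) ≤ Dir u (A \ K) := by
  unfold Dir
  have hm : MeasurableSet (A \ gL K L y s ρ Z) := hA.diff (gL_closed hK hL y s ρ Z).measurableSet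
  rw [← lintegral_indicator hm, ← lintegral_indicator (hA.diff hK.measurableSet)]
  refine lintegral_mono fun z => ?_
  by_cases hz : z ∈ A \ gL K L y s ρ Z
  swap
  · rw [indicator_of_notMem hz]
    exact zero_le
  rw [indicator_of_mem hz]
  by_cases hd : z ∈ discs Z ρ
  · have e : gW u w y s δ ρ Z =ᶠ[𝓝 z] fun _ => 0 := by
      filter_upwards [(discs_open Z ρ).mem_nhds hd] with v hv
      simp only [gW, if_pos hv]
    rw [e.fderiv_eq, fderiv_fun_const, Pi.zero_apply, ← ofReal_norm, norm_zero, ENNReal.ofReal_zero,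
      zero_pow two_ne_zero]
    exact zero_le
  · obtain ⟨h1, -, h3⟩ := gL_off hz.2 hd
    have hz2 := hAs z hz.1
    have e : gW u w y s δ ρ Z =ᶠ[𝓝 z] u := by
      filter_upwards [h1, isClosed_closedBall.isOpen_compl.mem_nhds hz2] with v hv hv'
      have hvd : v ∉ discs Z ρ := by
        intro hh
        obtain ⟨p, hp, hh⟩ := mem_iUnion₂.1 hh
        exact absurd (mem_ball.1 hh) (not_lt.2 (hv p hp).le)
      simp only [gW, if_neg hvd, if_neg hv']
    rw [e.fderiv_eq, indicator_of_mem (show z ∈ A \ K from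
      ⟨hz.1, h3 fun hb => hz2 (ball_subset_closedBall hb)⟩)]

theorem sub_Glue {K L : Set ℂ} {y : ℂ} {s δ ρ R : ℝ} (hδ : 0 < δ) {Z : Finset ℂ}
    (hK : Disjoint (collar y s δ ρ Z) K) :
    gL K L y s ρ Z ∩ closedBall y R ⊆
      (L ∩ closedBall y s) ∪ circs Z ρ ∪ (K ∩ (closedBall y R \ closedBall y s)) := by
  rintro z ⟨(hz | hz) | hz, hR⟩
  · exact Or.inl (Or.inl hz.1)
  · exact Or.inl (Or.inr hz)
  · refine Or.inr ⟨hz.1, hR, fun hs => ?_⟩
    have h1 : s ≤ dist z y := not_lt.1 fun hh => hz.2 (Or.inl hh)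
    refine disjoint_left.1 hK ⟨by linarith, hs, fun p hp => not_lt.1 fun hh => ?_⟩ hz.1
    exact hz.2 (Or.inr (mem_iUnion₂.2 ⟨p, hp, hh⟩))

/-- Gluing a pair `(w, L)` inside the circle to `(u, K)` outside. -/
theorem GLUE {Ω : Set ℂ} {ε : ℝ} {wk : Prop} {u : ℂ → ℝ} {K : Set ℂ} (h : AM0 Ω ε wk u K)
    {y : ℂ} {s δ ρ R η σ : ℝ} (hδ : 0 < δ) (hδs : δ < s) (hρ : 0 < ρ) (hR : s + ρ ≤ R)
    (hB : closedBall y R ⊆ Ω) (hη : 0 < η) {Z : Finset ℂ} (hZ : ∀ p ∈ Z, p ∈ sphere y s)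
    {w : ℂ → ℝ} {L : Set ℂ} (hL : IsClosed L) (hw : LocallyLipschitzOn (closedBall y s \ L) w)
    (hK : Disjoint (collar y s δ ρ Z) K) (hLA : Disjoint (collar y s δ ρ Z) L)
    (hσ : ∀ z ∈ collar y s δ ρ Z, |u z - w z| ≤ σ)
    (hsep : wk → ∀ κ : ℂ → ℝ, LC (Ω \ K) κ → ∃ κ₁ κ₂ : ℂ → ℝ, LC (ball y s \ L) κ₁ ∧
      LC ((Ω \ K) \ (closedBall y (s - δ) ∪ ⋃ p ∈ Z, closedBall p ρ)) κ₂ ∧
      (∀ z ∈ collar y s δ ρ Z, κ₁ z = κ₂ z) ∧
      ∀ z ∈ Ω \ K, z ∉ closedBall y R → κ₂ z = κ z) :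
    En u K (closedBall y s) ≤ ENNReal.ofReal (1 + η) * Dir w (closedBall y s \ L) +
      μH[1] (L ∩ closedBall y s) + ENNReal.ofReal (2 * (1 + 1 / η)) *
        (Dir (fun z => u z - w z) (collar y s δ ρ Z) + ENNReal.ofReal (7 * s * σ ^ 2 / δ)) +
      ENNReal.ofReal (7 * ρ * Z.card) + ENNReal.ofReal (ε * R * √R) := by
  have hsR : s ≤ R := by linarith
  have hR0 : 0 < R := by linarith
  have hcomp : Comp Ω wk u K y R (gW u w y s δ ρ Z) (gL K L y s ρ Z) :=
    ⟨gL_closed h.closed hL y s ρ Z, (glue_eq (δ := δ) hρ hR hZ u w).1,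
      fun z _ hz => (glue_eq (K := K) (L := L) hρ hR hZ u w).2 z hz,
      glue_lip h.isOpen h.closed hL h.locLip hδ hw hK, fun hw' => glue_sep hδ hρ hR hZ (hsep hw')⟩
  have hmin := h.min y R _ _ hR0 hB hcomp
  set A := closedBall y R \ closedBall y s with hAdef
  have hA : MeasurableSet A := measurableSet_closedBall.diff measurableSet_closedBall
  have hU : closedBall y s ∪ A = closedBall y R :=
    union_sdiff_cancel (closedBall_subset_closedBall hsR)
  have hsplit := split_Glue u h.closed hA (disjoint_sdiff_right (s := closedBall y s))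
  rw [hU] at hsplit
  have hfin : En u K A ≠ ∞ := by
    have h1 := h.upper hR0 hB
    rw [hsplit] at h1
    exact ne_top_of_le_ne_top ENNReal.ofReal_ne_top (le_add_self.trans h1)
  have hcol : ∀ z ∈ collar y s δ ρ Z, DifferentiableAt ℝ u z := fun z hz =>
    h.diff z ⟨hB (closedBall_subset_closedBall hsR hz.2.1), disjoint_left.1 hK hz⟩
  have h1 := glue_in h.closed hL hδ hδs hη hcol hw hσ
  have h2 := outer_Glue h.closed hL u w y s δ ρ Z hA fun z hz => hz.2
  have h3 : Dir (gW u w y s δ ρ Z) (closedBall y R \ gL K L y s ρ Z) ≤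
      Dir (gW u w y s δ ρ Z) (closedBall y s \ gL K L y s ρ Z) +
        Dir (gW u w y s δ ρ Z) (A \ gL K L y s ρ Z) := by
    rw [← hU, union_sdiff_distrib]
    exact lintegral_union_le _ _ _
  have h4 : μH[1] (gL K L y s ρ Z ∩ closedBall y R) ≤
      μH[1] (L ∩ closedBall y s) + ENNReal.ofReal (7 * ρ * Z.card) + μH[1] (K ∩ A) :=
    (measure_mono (sub_Glue hδ hK)).trans ((measure_union_le _ _).trans
      (add_le_add_left ((measure_union_le _ _).trans (add_le_add_right (circs_len Z hρ) _)) _))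
  rw [hsplit] at hmin
  refine (ENNReal.add_le_add_iff_right hfin).1 (hmin.trans ?_)
  have h5 := add_le_add_left (add_le_add (h3.trans (add_le_add h1 h2)) h4)
    (ENNReal.ofReal (ε * R * √R))
  refine h5.trans (le_of_eq ?_)
  unfold En
  ring

end Vale.Agent.P128
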