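import Vale.Agent.P128.TC.Defs

/-! P128 TC/Psi. Helper lemma names end with _Psi.
cpsi_lip: Psi z - Psi z2 = (z - z2) + ((‖z2 - y‖ - ‖z - y‖) / s) (O - y), and the second term has norm at most dist z z2 / 2
(abs_norm_sub_norm_le, ‖O - y‖ ≤ s / 2). So dist z z2 / 2 ≤ dist (Psi z) (Psi z2) ≤ 3/2 dist z z2.
exists_pinv: for fixed z the map ζ ↦ z - (1 - ‖ζ - y‖ / s) (O - y) is ContractingWith (1/2) (ContractingWith.fixedPoint_isFixedPt), so Psi is
onto; Φ = Function.surjInv; it is a left inverse by injectivity, Lipschitz by the lower bound.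
PInv.sphere: Psi z = z on the circle. PInv.mem: with ζ = Φ z and t = ‖ζ - y‖: if t ≥ s then ‖Psi ζ - y‖ ≥ t - (t/s - 1) s/2 = (t + s)/2.
PInv.off: if Φ z = y then z = Psi y = O; if p = prj (Φ z) ∈ K then p ∈ P and z = Psi ζ = O + (t/s) (p - O) lies in the segment
(segment_eq_image', 0 ≤ t/s ≤ 1). -/

namespace Vale.Agent.P128

open MeasureTheory Set Metric Filter Topology
open scoped ENNReal

theorem prj_mem {y z : ℂ} {s : ℝ} (hs : 0 < s) (hz : z ≠ y) : prj y s z ∈ sphere y s := by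
  have h : ‖z - y‖ ≠ 0 := norm_ne_zero_iff.2 (sub_ne_zero.2 hz)
  rw [mem_sphere_iff_norm, prj, add_sub_cancel_left, norm_mul, Complex.norm_real,
    Real.norm_of_nonneg (by positivity), div_mul_cancel₀ _ h]

theorem prj_sphere {y z : ℂ} {s : ℝ} (hs : 0 < s) (hz : z ∈ sphere y s) : prj y s z = z := by
  rw [prj, mem_sphere_iff_norm.1 hz, div_self hs.ne', Complex.ofReal_one, one_mul, add_sub_cancel]

theorem prj_circle (y : ℂ) (s : ℝ) {r : ℝ} (hr : 0 < r) (θ : ℝ) :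
    prj y s (circleMap y r θ) = circleMap y s θ := by
  have h : (r : ℂ) ≠ 0 := Complex.ofReal_ne_zero.2 hr.ne'
  rw [prj, circleMap_sub_center, norm_circleMap_zero, abs_of_pos hr, circleMap_zero, circleMap,
    Complex.ofReal_div, ← mul_assoc, div_mul_cancel₀ _ h]

theorem prj_contAt {y z : ℂ} (s : ℝ) (hz : z ≠ y) : ContinuousAt (prj y s) z := by
  have h : ‖z - y‖ ≠ 0 := norm_ne_zero_iff.2 (sub_ne_zero.2 hz)
  have h1 : ContinuousAt (fun z : ℂ => z - y) z := continuousAt_id.sub continuousAt_const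
  exact continuousAt_const.add
    ((Complex.continuous_ofReal.continuousAt.comp (continuousAt_const.div h1.norm h)).mul h1)

theorem shift_Psi {y O : ℂ} {s : ℝ} (hs : 0 < s) (hO : O ∈ closedBall y (s / 2)) (z z' : ℂ) :
    dist (((1 - ‖z - y‖ / s : ℝ) : ℂ) * (O - y)) (((1 - ‖z' - y‖ / s : ℝ) : ℂ) * (O - y)) ≤
      dist z z' / 2 := by
  have h1 : |‖z' - y‖ - ‖z - y‖| ≤ dist z z' := by
    rw [dist_comm, dist_eq_norm, ← sub_sub_sub_cancel_right z' z y]
    exact abs_norm_sub_norm_le _ _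
  rw [dist_eq_norm, ← sub_mul, ← Complex.ofReal_sub, norm_mul, Complex.norm_real, Real.norm_eq_abs,
    sub_sub_sub_cancel_left, ← sub_div, abs_div, abs_of_pos hs]
  refine (mul_le_mul (div_le_div_of_nonneg_right h1 hs.le) (mem_closedBall_iff_norm.1 hO)
    (norm_nonneg _) (by positivity)).trans (le_of_eq ?_)
  field_simp

theorem cpsi_lip {y O : ℂ} {s : ℝ} (hs : 0 < s) (hO : O ∈ closedBall y (s / 2)) (z z' : ℂ) :
    dist z z' / 2 ≤ dist (Psi y O s z) (Psi y O s z') ∧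
      dist (Psi y O s z) (Psi y O s z') ≤ 3 / 2 * dist z z' := by
  have h := shift_Psi hs hO z z'
  have e : Psi y O s z - Psi y O s z' = (z - z') + (((1 - ‖z - y‖ / s : ℝ) : ℂ) * (O - y) -
      ((1 - ‖z' - y‖ / s : ℝ) : ℂ) * (O - y)) := by
    rw [Psi, Psi]
    ring
  rw [dist_eq_norm] at h
  rw [dist_eq_norm, dist_eq_norm, e] at *
  constructor
  · linarith [norm_sub_le_norm_add (z - z') (((1 - ‖z - y‖ / s : ℝ) : ℂ) * (O - y) -
      ((1 - ‖z' - y‖ / s : ℝ) : ℂ) * (O - y))]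
  · exact (norm_add_le _ _).trans (by linarith)

theorem exists_pinv {y O : ℂ} {s : ℝ} (hs : 0 < s) (hO : O ∈ closedBall y (s / 2)) :
    ∃ Φ, PInv y O s Φ := by
  have h1 : Function.Surjective (Psi y O s) := fun z => by
    have hc : ContractingWith (1 / 2) fun ζ => z - ((1 - ‖ζ - y‖ / s : ℝ) : ℂ) * (O - y) :=
      ⟨by norm_num, LipschitzWith.of_dist_le_mul fun a b => by
        rw [dist_sub_left]
        refine (shift_Psi hs hO a b).trans (le_of_eq ?_)
        push_cast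
        ring⟩
    exact ⟨_, (eq_sub_iff_add_eq.1 hc.fixedPoint_isFixedPt.eq.symm)⟩
  have h2 : Function.Injective (Psi y O s) := fun a b hab => by
    have h := (cpsi_lip hs hO a b).1
    rw [hab, dist_self] at h
    exact dist_le_zero.1 (by linarith)
  refine ⟨Function.surjInv h1, LipschitzWith.of_dist_le_mul fun a b => ?_,
    fun z => h2 (Function.surjInv_eq h1 _), Function.surjInv_eq h1⟩
  have h := (cpsi_lip hs hO (Function.surjInv h1 a) (Function.surjInv h1 b)).1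
  rw [Function.surjInv_eq h1, Function.surjInv_eq h1] at h
  push_cast
  linarith

theorem PInv.sphere {y O : ℂ} {s : ℝ} {Φ : ℂ → ℂ} (h : PInv y O s Φ) (hs : 0 < s) {z : ℂ}
    (hz : z ∈ sphere y s) : Φ z = z := by
  have e : Psi y O s z = z := by
    rw [Psi, mem_sphere_iff_norm.1 hz, div_self hs.ne', sub_self, Complex.ofReal_zero, zero_mul,
      add_zero]
  exact (congrArg Φ e.symm).trans (h.left z)

theorem PInv.mem {y O : ℂ} {s : ℝ} {Φ : ℂ → ℂ} (h : PInv y O s Φ) (hs : 0 < s)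
    (hO : O ∈ closedBall y (s / 2)) (z : ℂ) :
    (z ∈ ball y s → Φ z ∈ ball y s) ∧ (z ∈ closedBall y s → Φ z ∈ closedBall y s) := by
  have key : s ≤ ‖Φ z - y‖ → (‖Φ z - y‖ + s) / 2 ≤ ‖z - y‖ := fun ht => by
    have e : Φ z - y = (z - y) - ((1 - ‖Φ z - y‖ / s : ℝ) : ℂ) * (O - y) := by
      have := h.right z
      rw [Psi] at this
      linear_combination this
    have h1 : ‖((1 - ‖Φ z - y‖ / s : ℝ) : ℂ) * (O - y)‖ ≤ (‖Φ z - y‖ / s - 1) * (s / 2) := by
      have h2 : 1 ≤ ‖Φ z - y‖ / s := (one_le_div hs).2 ht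
      rw [norm_mul, Complex.norm_real, Real.norm_eq_abs, abs_sub_comm, abs_of_nonneg (by linarith)]
      exact mul_le_mul_of_nonneg_left (mem_closedBall_iff_norm.1 hO) (by linarith)
    have h3 : (‖Φ z - y‖ / s - 1) * (s / 2) = (‖Φ z - y‖ - s) / 2 := by field_simp
    have h4 := (congrArg norm e).le.trans (norm_sub_le _ _)
    linarith
  rw [mem_ball_iff_norm, mem_ball_iff_norm, mem_closedBall_iff_norm, mem_closedBall_iff_norm]
  constructor
  · intro hz
    by_contra hn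
    linarith [key (not_lt.1 hn), not_lt.1 hn]
  · intro hz
    by_contra hn
    linarith [key (not_le.1 hn).le, not_le.1 hn]

theorem PInv.off {y O : ℂ} {s : ℝ} {Φ : ℂ → ℂ} (h : PInv y O s Φ) (hs : 0 < s)
    (hO : O ∈ closedBall y (s / 2)) {K : Set ℂ} {P : Finset ℂ}
    (hP : (P : Set ℂ) = K ∩ Metric.sphere y s) {z : ℂ} (hz : z ∈ closedBall y s)
    (hz' : z ∉ starS O P) : Φ z ≠ y ∧ prj y s (Φ z) ∈ Metric.sphere y s \ K := by
  have e := h.right z
  have h1 : Φ z ≠ y := fun h0 => hz' (Or.inl (by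
    rw [← e, h0, Psi, sub_self, norm_zero, zero_div, sub_zero, Complex.ofReal_one, one_mul,
      add_sub_cancel]
    exact mem_singleton O))
  refine ⟨h1, prj_mem hs h1, fun hK => hz' (Or.inr ?_)⟩
  have hp : prj y s (Φ z) ∈ (P : Set ℂ) := hP ▸ ⟨hK, prj_mem hs h1⟩
  have h2 : ‖Φ z - y‖ ≤ s := mem_closedBall_iff_norm.1 ((h.mem hs hO z).2 hz)
  have h3 : ((‖Φ z - y‖ : ℝ) : ℂ) ≠ 0 :=
    Complex.ofReal_ne_zero.2 (norm_ne_zero_iff.2 (sub_ne_zero.2 h1))
  have h4 : (s : ℂ) ≠ 0 := Complex.ofReal_ne_zero.2 hs.ne'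
  refine mem_biUnion hp ?_
  rw [segment_eq_image']
  refine ⟨‖Φ z - y‖ / s, ⟨by positivity, (div_le_one hs).2 h2⟩, Eq.trans ?_ e⟩
  simp only [Psi, prj, Complex.real_smul]
  push_cast
  field_simp
  ring

end Vale.Agent.P128
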